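import Vale.Agent.P052.Chains

/-!
The alternating cochain used in Ky Fan's lemma.
-/

namespace Vale.Agent.P052

open Multiset

/-- indicator that the labels with first coordinate below `n` are distinct and alternate in sign,
the largest one having sign `s` -/
def alt : ℕ → ZMod 2 → Multiset (ℕ × ZMod 2) → ZMod 2
  | 0, _, _ => 1
  | n + 1, s, t =>
    if count (n, s) t = 0 ∧ count (n, s + 1) t = 0 then alt n s t
    else if count (n, s) t = 1 ∧ count (n, s + 1) t = 0 then alt n (s + 1) t else 0

lemma zsucc (s : ZMod 2) : s + 1 + 1 = s := by revert s; decide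
lemma zne (s : ZMod 2) : s + 1 ≠ s := by revert s; decide
lemma zcases (s t : ZMod 2) : t = s ∨ t = s + 1 := by revert s t; decide
lemma zone {s : ZMod 2} (h : s ≠ 0) : s = 1 := by revert s; decide

lemma zsum (f : ZMod 2 → ZMod 2) (s : ZMod 2) : ∑ σ, f σ = f s + f (s + 1) := by
  have h : (Finset.univ : Finset (ZMod 2)) = {s, s + 1} := by revert s; decide
  rw [h, Finset.sum_pair (zne s).symm]

lemma alt_congr {n : ℕ} {t t' : Multiset (ℕ × ZMod 2)}
    (h : ∀ a : ℕ × ZMod 2, a.1 < n → count a t = count a t') (s : ZMod 2) :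
    alt n s t = alt n s t' := by
  induction n generalizing s with
  | zero => rfl
  | succ n ih =>
    have ih' := ih (fun a ha => h a (Nat.lt_succ_of_lt ha))
    simp only [alt, ih', h (n, s) (Nat.lt_succ_self n), h (n, s + 1) (Nat.lt_succ_self n)]

lemma alt_zero (n : ℕ) (s : ZMod 2) : alt n s 0 = 1 := by
  induction n with
  | zero => rfl
  | succ n ih => simp [alt, ih]

/-- sign flip of a label -/
def flip {ι : Type*} (a : ι × ZMod 2) : ι × ZMod 2 := (a.1, a.2 + 1)

lemma flip_injective {ι : Type*} : Function.Injective (flip (ι := ι)) := by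
  rintro ⟨a, s⟩ ⟨b, t⟩ h
  simp only [flip, Prod.mk.injEq, add_left_inj] at h
  exact Prod.ext h.1 h.2

lemma count_flip (t : Multiset (ℕ × ZMod 2)) (n : ℕ) (s : ZMod 2) :
    count (n, s) (t.map flip) = count (n, s + 1) t := by
  have : (n, s) = flip (n, s + 1) := by simp [flip, zsucc]
  rw [this, Multiset.count_map_eq_count' _ _ flip_injective]

lemma alt_flip (n : ℕ) (s : ZMod 2) (t : Multiset (ℕ × ZMod 2)) :
    alt n s (t.map flip) = alt n (s + 1) t := by
  induction n generalizing s with
  | zero => rfl
  | succ n ih => simp only [alt, ih, count_flip]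

/-- no two labels with equal first coordinate and different sign -/
def NoCompl {ι : Type*} (t : Multiset (ι × ZMod 2)) : Prop :=
  ∀ a ∈ t, ∀ b ∈ t, a.1 = b.1 → a.2 = b.2

/-- truncated coboundary -/
def cobN (n : ℕ) (w : Multiset (ℕ × ZMod 2) → ZMod 2) (t : Multiset (ℕ × ZMod 2)) : ZMod 2 :=
  ∑ i ∈ Finset.range n, ∑ σ : ZMod 2, (count (i, σ) t : ZMod 2) * w (t.erase (i, σ))

lemma cob_eq_cobN {n : ℕ} {t : Multiset (ℕ × ZMod 2)} (h : ∀ a ∈ t, a.1 < n)
    (w : Multiset (ℕ × ZMod 2) → ZMod 2) : cob w t = cobN n w t := by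
  unfold cob cobN ev
  rw [Finset.sum_multiset_map_count, ← Finset.sum_product']
  simp only [nsmul_eq_mul]
  apply Finset.sum_subset
  · intro a ha
    simp only [Multiset.mem_toFinset] at ha
    simp [h a ha]
  · intro a _ ha
    simp only [Multiset.mem_toFinset] at ha
    simp [Multiset.count_eq_zero.mpr ha]

lemma cobN_alt (n : ℕ) (s : ZMod 2) (t : Multiset (ℕ × ZMod 2)) (ht : NoCompl t) :
    cobN n (alt n s) t = alt n s t + alt n (s + 1) t := by
  induction n generalizing s with
  | zero => simp [cobN, alt]; decide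
  | succ n ih =>
    have hlow : ∀ i ∈ Finset.range n, ∀ σ τ : ZMod 2,
        count (n, τ) (t.erase (i, σ)) = count (n, τ) t := by
      intro i hi σ τ
      apply Multiset.count_erase_of_ne
      have := Finset.mem_range.mp hi
      intro h
      simp only [Prod.mk.injEq] at h
      omega
    have htop : ∀ σ τ : ZMod 2, alt n τ (t.erase (n, σ)) = alt n τ t := by
      intro σ τ
      apply alt_congr
      intro a ha
      apply Multiset.count_erase_of_ne
      rintro rfl
      simp at ha
    have hab : count (n, s) t = 0 ∨ count (n, s + 1) t = 0 := by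
      by_contra hc
      push Not at hc
      have h1 := Multiset.count_ne_zero.mp hc.1
      have h2 := Multiset.count_ne_zero.mp hc.2
      exact zne s (ht _ h2 _ h1 rfl)
    have hne : ((n, s + 1) : ℕ × ZMod 2) ≠ (n, s) := by
      intro h; simp only [Prod.mk.injEq, true_and] at h; exact zne s h
    have e1 : count (n, s + 1) (t.erase (n, s)) = count (n, s + 1) t :=
      Multiset.count_erase_of_ne hne _
    have e2 : count (n, s) (t.erase (n, s + 1)) = count (n, s) t :=
      Multiset.count_erase_of_ne hne.symm _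
    have hsum : ∑ i ∈ Finset.range n, ∑ σ : ZMod 2,
        (count (i, σ) t : ZMod 2) * alt (n + 1) s (t.erase (i, σ)) =
        if count (n, s) t = 0 ∧ count (n, s + 1) t = 0 then cobN n (alt n s) t
        else if count (n, s) t = 1 ∧ count (n, s + 1) t = 0 then cobN n (alt n (s + 1)) t
        else 0 := by
      unfold cobN
      split_ifs with h1 h2
      · refine Finset.sum_congr rfl fun i hi => Finset.sum_congr rfl fun σ _ => ?_
        simp only [alt, hlow i hi, h1, and_self, if_true]
      · refine Finset.sum_congr rfl fun i hi => Finset.sum_congr rfl fun σ _ => ?_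
        simp only [alt, hlow i hi, if_neg h1, if_pos h2]
      · refine Finset.sum_eq_zero fun i hi => Finset.sum_eq_zero fun σ _ => ?_
        simp only [alt, hlow i hi, if_neg h1, if_neg h2, mul_zero]
    rw [cobN, Finset.sum_range_succ, hsum, zsum _ s, ih, ih]
    simp only [alt, htop, e1, e2, Multiset.count_erase_self, zsucc]
    generalize count (n, s) t = a at *
    generalize count (n, s + 1) t = b at *
    generalize alt n s t = x
    generalize alt n (s + 1) t = y
    have h2 : ((2 : ℕ) : ZMod 2) = 0 := by decide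
    rcases hab with rfl | rfl
    · rcases b with _ | _ | _ | b
      · simp
      · simp
      · simp
      · simp
    · rcases a with _ | _ | _ | a
      · simp
      · simp; linear_combination zadd x
      · simp; exact Or.inl (by decide)
      · simp

lemma cob_alt {n : ℕ} (s : ZMod 2) {t : Multiset (ℕ × ZMod 2)} (h : ∀ a ∈ t, a.1 < n)
    (ht : NoCompl t) : cob (alt n s) t = alt n s t + alt n (s + 1) t := by
  rw [cob_eq_cobN h, cobN_alt n s t ht]

/-- alternating label sets -/
inductive Alt : ℕ → ZMod 2 → Multiset (ℕ × ZMod 2) → Prop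
  | nil (n : ℕ) (s : ZMod 2) : Alt n s 0
  | cons (n m : ℕ) (s : ZMod 2) (t : Multiset (ℕ × ZMod 2)) :
      m < n → Alt m (s + 1) t → Alt n s ((m, s) ::ₘ t)

lemma Alt.mono {n n' : ℕ} {s : ZMod 2} {t : Multiset (ℕ × ZMod 2)} (h : Alt n s t)
    (hn : n ≤ n') : Alt n' s t := by
  cases h with
  | nil => exact Alt.nil _ _
  | cons _ m _ t hm ht => exact Alt.cons _ m _ t (lt_of_lt_of_le hm hn) ht

lemma Alt.lt {n : ℕ} {s : ZMod 2} {t : Multiset (ℕ × ZMod 2)} (h : Alt n s t) :
    ∀ a ∈ t, a.1 < n := by
  induction h with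
  | nil => simp
  | cons n m s t hm _ ih =>
    intro a ha
    rcases Multiset.mem_cons.mp ha with rfl | ha
    · exact hm
    · exact lt_trans (ih a ha) hm

lemma alt_ne_zero {n : ℕ} {s : ZMod 2} {t : Multiset (ℕ × ZMod 2)} (h : alt n s t ≠ 0) :
    ∃ u, Alt n s u ∧ ∀ a : ℕ × ZMod 2, a.1 < n → count a t = count a u := by
  induction n generalizing s with
  | zero => exact ⟨0, Alt.nil _ _, by simp⟩
  | succ n ih =>
    unfold alt at h
    split_ifs at h with h1 h2
    · obtain ⟨u, hu, hc⟩ := ih h
      refine ⟨u, hu.mono (Nat.le_succ n), ?_⟩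
      rintro ⟨i, σ⟩ hi
      rcases Nat.lt_succ_iff_lt_or_eq.mp hi with hi | hi
      · exact hc _ hi
      · simp only at hi
        subst hi
        have hu0 : count (i, σ) u = 0 :=
          Multiset.count_eq_zero.mpr (fun hm => lt_irrefl _ (hu.lt _ hm))
        rw [hu0]
        rcases zcases s σ with rfl | rfl
        · exact h1.1
        · exact h1.2
    · obtain ⟨u, hu, hc⟩ := ih h
      refine ⟨(n, s) ::ₘ u, Alt.cons _ n s u (Nat.lt_succ_self n) hu, ?_⟩
      rintro ⟨i, σ⟩ hi
      rcases Nat.lt_succ_iff_lt_or_eq.mp hi with hi | hi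
      · rw [Multiset.count_cons_of_ne, hc _ hi]
        intro h'
        simp only [Prod.mk.injEq] at h' hi
        omega
      · simp only at hi
        subst hi
        have hu0 : count (i, σ) u = 0 :=
          Multiset.count_eq_zero.mpr (fun hm => lt_irrefl _ (hu.lt _ hm))
        rcases zcases s σ with rfl | rfl
        · rw [Multiset.count_cons_self, hu0]; exact h2.1
        · rw [Multiset.count_cons_of_ne, hu0]
          · exact h2.2
          · intro h'
            simp only [Prod.mk.injEq, true_and] at h'
            exact zne _ h'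
    · exact absurd rfl h

lemma Alt_of_alt_ne_zero {n : ℕ} {s : ZMod 2} {t : Multiset (ℕ × ZMod 2)}
    (ht : ∀ a ∈ t, a.1 < n) (h : alt n s t ≠ 0) : Alt n s t := by
  obtain ⟨u, hu, hc⟩ := alt_ne_zero h
  have : t = u := by
    ext a
    by_cases ha : a.1 < n
    · exact hc a ha
    · rw [Multiset.count_eq_zero.mpr (fun hm => ha (ht a hm)),
        Multiset.count_eq_zero.mpr (fun hm => ha (hu.lt a hm))]
  exact this ▸ hu

/-- the full alternating set -/
def full : ℕ → ZMod 2 → Multiset (ℕ × ZMod 2)
  | 0, _ => 0
  | n + 1, s => (n, s) ::ₘ full n (s + 1)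

lemma Alt.card_le {n : ℕ} {s : ZMod 2} {t : Multiset (ℕ × ZMod 2)} (h : Alt n s t) :
    card t ≤ n := by
  induction h with
  | nil => simp
  | cons n m s t hm _ ih => simp; omega

lemma Alt.eq_full {n : ℕ} {s : ZMod 2} {t : Multiset (ℕ × ZMod 2)} (h : Alt n s t)
    (hc : card t = n) : t = full n s := by
  induction h with
  | nil n s => simp at hc; subst hc; rfl
  | cons n m s t hm ht ih =>
    have := ht.card_le
    simp only [card_cons] at hc
    have hnm : n = m + 1 := by omega
    subst hnm
    rw [full, ih (by omega)]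

lemma Alt.card_four {n : ℕ} {s : ZMod 2} {t : Multiset (ℕ × ZMod 2)} (h : Alt n s t)
    (hc : card t = 4) : ∃ a b c d : ℕ, a < b ∧ b < c ∧ c < d ∧
      t = {(d, s), (c, s + 1), (b, s), (a, s + 1)} := by
  cases h with
  | nil => simp at hc
  | cons _ d _ t1 _ h1 =>
    cases h1 with
    | nil => simp at hc
    | cons _ c _ t2 hcd h2 =>
      cases h2 with
      | nil => simp at hc
      | cons _ b _ t3 hbc h3 =>
        cases h3 with
        | nil => simp at hc
        | cons _ a _ t4 hab h4 =>
          have : t4 = 0 := by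
            simp only [card_cons] at hc
            exact Multiset.card_eq_zero.mp (by omega)
          subst this
          refine ⟨a, b, c, d, hab, hbc, hcd, ?_⟩
          simp only [zsucc]
          rfl

end Vale.Agent.P052
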