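import Mathlib

/-!
Mod 2 chains of finite tuples of points, boundary and prism operators.
-/

namespace Vale.Agent.P052

open Multiset

/-- evaluation of a mod 2 cochain on a chain -/
def ev {α : Type*} (c : Multiset α) (w : α → ZMod 2) : ZMod 2 := (c.map w).sum

section ev
variable {α β : Type*}

@[simp] lemma ev_zero (w : α → ZMod 2) : ev 0 w = 0 := by simp [ev]

@[simp] lemma ev_cons (a : α) (c : Multiset α) (w : α → ZMod 2) :
    ev (a ::ₘ c) w = w a + ev c w := by simp [ev]

@[simp] lemma ev_singleton (a : α) (w : α → ZMod 2) : ev {a} w = w a := by simp [ev]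

@[simp] lemma ev_add (c d : Multiset α) (w : α → ZMod 2) :
    ev (c + d) w = ev c w + ev d w := by simp [ev]

lemma ev_map (c : Multiset α) (f : α → β) (w : β → ZMod 2) :
    ev (c.map f) w = ev c (fun a => w (f a)) := by simp [ev, Multiset.map_map]

lemma ev_bind (c : Multiset α) (f : α → Multiset β) (w : β → ZMod 2) :
    ev (c.bind f) w = ev c (fun a => ev (f a) w) := by
  induction c using Multiset.induction_on with
  | empty => simp
  | cons a c ih => simp [ih]

lemma ev_add_fun (c : Multiset α) (w w' : α → ZMod 2) :
    ev c (fun a => w a + w' a) = ev c w + ev c w' := by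
  simp [ev, Multiset.sum_map_add]

lemma ev_congr {c : Multiset α} {w w' : α → ZMod 2} (h : ∀ a ∈ c, w a = w' a) :
    ev c w = ev c w' := by
  unfold ev; rw [Multiset.map_congr rfl h]

lemma ev_const (c : Multiset α) (x : ZMod 2) : ev c (fun _ => x) = (card c : ZMod 2) * x := by
  simp [ev]

lemma ev_eq_zero {c : Multiset α} {w : α → ZMod 2} (h : ∀ a ∈ c, w a = 0) : ev c w = 0 := by
  rw [ev_congr h, ev_const]; simp

lemma exists_of_ev_ne_zero {c : Multiset α} {w : α → ZMod 2} (h : ev c w ≠ 0) :
    ∃ a ∈ c, w a ≠ 0 := by
  by_contra hc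
  push Not at hc
  exact h (ev_eq_zero hc)

lemma ev_mul_left (c : Multiset α) (x : ZMod 2) (w : α → ZMod 2) :
    ev c (fun a => x * w a) = x * ev c w := by
  simp [ev, Multiset.sum_map_mul_left]

end ev

lemma zadd (x : ZMod 2) : x + x = 0 := by
  revert x; decide

section lists
variable {X Y : Type*}

/-- the faces of a tuple -/
def faces : List X → Multiset (List X)
  | [] => 0
  | v :: l => l ::ₘ (faces l).map (v :: ·)

/-- the prism between two images of a tuple -/
def prism (f g : X → Y) : List X → Multiset (List Y)
  | [] => 0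
  | v :: l => (f v :: g v :: l.map g) ::ₘ (prism f g l).map (f v :: ·)

lemma faces_map (g : X → Y) (l : List X) : faces (l.map g) = (faces l).map (List.map g) := by
  induction l with
  | nil => simp [faces]
  | cons v l ih => simp [faces, ih, Multiset.map_map]

lemma prism_identity (f g : X → Y) (l : List X) (w : List Y → ZMod 2) :
    ev (prism f g l) (fun r => ev (faces r) w) + ev (faces l) (fun r => ev (prism f g r) w)
      = w (l.map f) + w (l.map g) := by
  induction l generalizing w with
  | nil => simp [prism, faces, zadd]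
  | cons v l ih =>
    have ih' := ih (fun r => w (f v :: r))
    simp only [prism, faces, ev_cons, ev_map, faces_map, ev_add_fun, List.map_cons] at ih' ⊢
    have h1 := zadd (ev (faces l) (fun a => w (f v :: g v :: List.map g a)))
    have h2 := zadd (ev (prism f g l) w)
    have h3 := zadd (w (f v :: List.map g l))
    linear_combination ih' + h1 + h2 + h3

lemma mem_prism {f g : X → Y} {l : List X} {r : List Y} (h : r ∈ prism f g l) :
    r.length = l.length + 1 ∧ ∀ y ∈ r, ∃ x ∈ l, y = f x ∨ y = g x := by
  induction l generalizing r with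
  | nil => simp [prism] at h
  | cons v l ih =>
    simp only [prism, mem_cons, Multiset.mem_map] at h
    rcases h with rfl | ⟨r', hr', rfl⟩
    · refine ⟨by simp, ?_⟩
      intro y hy
      simp only [List.mem_cons, List.mem_map] at hy
      rcases hy with rfl | rfl | ⟨x, hx, rfl⟩
      · exact ⟨v, by simp, Or.inl rfl⟩
      · exact ⟨v, by simp, Or.inr rfl⟩
      · exact ⟨x, by simp [hx], Or.inr rfl⟩
    · obtain ⟨h1, h2⟩ := ih hr'
      refine ⟨by simp [h1], ?_⟩
      intro y hy
      simp only [List.mem_cons] at hy
      rcases hy with rfl | hy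
      · exact ⟨v, by simp, Or.inl rfl⟩
      · obtain ⟨x, hx, hxy⟩ := h2 y hy
        exact ⟨x, by simp [hx], hxy⟩

/-- coboundary of a symmetric cochain -/
def cob [DecidableEq X] (w : Multiset X → ZMod 2) (s : Multiset X) : ZMod 2 :=
  ev s (fun v => w (s.erase v))

lemma ev_faces [DecidableEq X] (l : List X) (w : Multiset X → ZMod 2) :
    ev (faces l) (fun r => w (r : Multiset X)) = cob w (l : Multiset X) := by
  induction l generalizing w with
  | nil => simp [faces, cob]
  | cons v l ih =>
    have ih' := ih (fun s => w (v ::ₘ s))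
    simp only [faces, ev_cons, ev_map, cob, ← Multiset.cons_coe, erase_cons_head] at ih' ⊢
    rw [ih']
    congr 1
    apply ev_congr
    intro a ha
    rw [Multiset.erase_cons_tail_of_mem ha]

lemma cob_map [DecidableEq X] [DecidableEq Y] (f : X → Y) (w : Multiset Y → ZMod 2)
    (s : Multiset X) : cob (fun r => w (r.map f)) s = cob w (s.map f) := by
  unfold cob
  rw [ev_map]
  apply ev_congr
  intro a ha
  show w (map f (s.erase a)) = _
  rw [Multiset.map_erase_of_mem _ _ ha]

/-- a stack of prisms -/
lemma prism_stack (H : ℕ → X → Y) (z : Multiset (List X))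
    (hz : ∀ w : List X → ZMod 2, ev z (fun r => ev (faces r) w) = 0) (N : ℕ)
    (w : List Y → ZMod 2) :
    ev ((Multiset.range N).bind (fun a => z.bind (prism (H a) (H (a + 1)))))
        (fun r => ev (faces r) w)
      = ev z (fun l => w (l.map (H 0))) + ev z (fun l => w (l.map (H N))) := by
  induction N with
  | zero => simp [zadd]
  | succ N ih =>
    rw [Multiset.range_succ, Multiset.cons_bind, ev_add, ih, ev_bind]
    have h1 : ev z (fun a => ev (prism (H N) (H (N + 1)) a) (fun r => ev (faces r) w))
        + ev z (fun l => ev (faces l) (fun r => ev (prism (H N) (H (N + 1)) r) w))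
        = ev z (fun l => w (l.map (H N))) + ev z (fun l => w (l.map (H (N + 1)))) := by
      rw [← ev_add_fun, ← ev_add_fun]
      exact ev_congr (fun l _ => prism_identity _ _ l w)
    rw [hz] at h1
    have h2 := zadd (ev z (fun l => w (l.map (H N))))
    linear_combination h1 + h2

end lists

end Vale.Agent.P052
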