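import Vale.Agent.P052.Sphere

/-!
Door-in door-out parity arguments on a labelled cycle.
-/

namespace Vale.Agent.P052

open Multiset

section general
variable {X L : Type*} [DecidableEq X] [DecidableEq L]

omit [DecidableEq X] in
lemma ev_ite_count (lam : X → L) (s : Multiset X) (b : L) (g : ZMod 2) :
    ev s (fun v => if lam v = b then g else 0) = (count b (s.map lam) : ZMod 2) * g := by
  induction s using Multiset.induction_on with
  | empty => simp
  | cons a s ih =>
    rw [ev_cons, ih, Multiset.map_cons, Multiset.count_cons]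
    by_cases h : lam a = b
    · simp [h]; ring
    · simp [h, Ne.symm h]

omit [DecidableEq L] in
lemma map_erase_eq_iff (lam : X → L) {s : Multiset X} {b : L} {F : Multiset L}
    (hs : s.map lam = b ::ₘ F) {v : X} (hv : v ∈ s) :
    (s.erase v).map lam = F ↔ lam v = b := by
  have h1 : lam v ::ₘ (s.erase v).map lam = b ::ₘ F := by
    rw [← Multiset.map_cons, Multiset.cons_erase hv, hs]
  constructor
  · intro h
    rw [h] at h1
    exact (Multiset.cons_inj_left _).mp h1
  · intro h
    rw [h] at h1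
    exact (Multiset.cons_inj_right _).mp h1

lemma cob_door (lam : X → L) (W : Multiset X → ZMod 2) {s : Multiset X} {b : L} {F : Multiset L}
    (hs : s.map lam = b ::ₘ F) (g : ZMod 2)
    (hW : ∀ v ∈ s, (s.erase v).map lam = F → W (s.erase v) = g) :
    cob (fun r => if r.map lam = F then W r else 0) s = (count b F + 1 : ZMod 2) * g := by
  unfold cob
  rw [ev_congr (w' := fun v => if lam v = b then g else 0), ev_ite_count, hs]
  · simp
  · intro v hv
    by_cases h : lam v = b
    · have h' := (map_erase_eq_iff lam hs hv).mpr h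
      simp only [if_pos h, if_pos h', hW v hv h']
    · have h' : ¬ (s.erase v).map lam = F := fun h' => h ((map_erase_eq_iff lam hs hv).mp h')
      simp only [if_neg h, if_neg h']

lemma cob_door_zero (lam : X → L) (W : Multiset X → ZMod 2) {s : Multiset X} {F : Multiset L}
    (hs : ∀ b, s.map lam ≠ b ::ₘ F) :
    cob (fun r => if r.map lam = F then W r else 0) s = 0 := by
  unfold cob
  apply ev_eq_zero
  intro v hv
  refine if_neg ?_
  intro h
  apply hs (lam v)
  rw [← h, ← Multiset.map_cons, Multiset.cons_erase hv]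

/-- A label set carried an odd number of times has, across each facet, a realised neighbour. -/
lemma exists_neighbour (lam : X → L) (z : Multiset (Multiset X))
    (hcyc : ∀ w, ev z (cob w) = 0) (b0 : L) (F : Multiset L) (hF : F.Nodup) (hb0 : b0 ∉ F)
    (hodd : ev z (fun s => if s.map lam = b0 ::ₘ F then 1 else 0) = 1) :
    ∃ s ∈ z, ∃ b, b ≠ b0 ∧ b ∉ F ∧ s.map lam = b ::ₘ F := by
  by_contra hc
  push Not at hc
  have := hcyc (fun r => if r.map lam = F then 1 else 0)
  rw [ev_congr (w' := fun s => if s.map lam = b0 ::ₘ F then 1 else 0), hodd] at this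
  · exact absurd this (by decide)
  · intro s hs
    by_cases h : ∃ b, s.map lam = b ::ₘ F
    · obtain ⟨b, hb⟩ := h
      rw [cob_door lam (fun _ => 1) hb 1 (fun _ _ _ => rfl)]
      by_cases hbb : b = b0
      · subst hbb
        simp [hb, Multiset.count_eq_zero.mpr hb0]
      · have hbF : b ∈ F := by
          by_contra hbF
          exact hc s hs b hbb hbF hb
        rw [if_neg, Multiset.count_eq_one_of_mem hF hbF]
        · decide
        · rw [hb]
          intro h
          exact hbb ((Multiset.cons_inj_left _).mp h)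
    · push Not at h
      rw [cob_door_zero lam (fun _ => 1) h, if_neg (h b0)]

omit [DecidableEq X] in
lemma exists_odd_class (f : X → L) (z : Multiset X) (E : L → ZMod 2)
    (h : ev z (fun s => E (f s)) = 1) :
    ∃ t, E t ≠ 0 ∧ ev z (fun s => if f s = t then 1 else 0) = 1 := by
  rw [← ev_map z f E] at h
  unfold ev at h
  rw [Finset.sum_multiset_map_count] at h
  obtain ⟨t, _, ht⟩ := Finset.exists_ne_zero_of_sum_ne_zero (h ▸ one_ne_zero)
  rw [nsmul_eq_mul] at ht
  refine ⟨t, right_ne_zero_of_mul ht, ?_⟩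
  rw [ev_ite_count, mul_one]
  exact zone (left_ne_zero_of_mul ht)

end general

/-- full signed label set -/
def G (σ : Fin 10 → ZMod 2) : Multiset (Fin 10 × ZMod 2) :=
  Finset.univ.val.map (fun m => (m, σ m))

/-- a facet of a full signed label set -/
def F (σ : Fin 10 → ZMod 2) (j : Fin 10) : Multiset (Fin 10 × ZMod 2) :=
  (Finset.univ.erase j).val.map (fun m => (m, σ m))

lemma G_eq (σ τ : Fin 10 → ZMod 2) (j : Fin 10) (h : ∀ m, m ≠ j → σ m = τ m) :
    G σ = (j, σ j) ::ₘ F τ j := by
  unfold G F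
  rw [← Multiset.cons_erase (s := Finset.univ.val) (a := j) (by simp), Multiset.map_cons,
    Finset.erase_val]
  congr 1
  apply Multiset.map_congr rfl
  intro m hm
  have : m ≠ j := by
    rw [← Finset.erase_val] at hm
    exact (Finset.mem_erase.mp (Finset.mem_val.mp hm)).1
  rw [h m this]

lemma mem_F {σ : Fin 10 → ZMod 2} {j : Fin 10} {b : Fin 10 × ZMod 2} :
    b ∈ F σ j ↔ b.1 ≠ j ∧ b.2 = σ b.1 := by
  unfold F
  simp only [Multiset.mem_map, Finset.mem_val, Finset.mem_erase, Finset.mem_univ, and_true]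
  constructor
  · rintro ⟨m, hm, rfl⟩; exact ⟨hm, rfl⟩
  · rintro ⟨h1, h2⟩; exact ⟨b.1, h1, Prod.ext rfl h2.symm⟩

lemma mem_G {σ : Fin 10 → ZMod 2} {b : Fin 10 × ZMod 2} : b ∈ G σ ↔ b.2 = σ b.1 := by
  unfold G
  simp only [Multiset.mem_map, Finset.mem_val, Finset.mem_univ, true_and]
  constructor
  · rintro ⟨m, rfl⟩; rfl
  · intro h; exact ⟨b.1, Prod.ext rfl h.symm⟩

lemma nodup_F (σ : Fin 10 → ZMod 2) (j : Fin 10) : (F σ j).Nodup :=
  Multiset.Nodup.map (fun _ _ h => congrArg Prod.fst h) (Finset.univ.erase j).nodup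

lemma nodup_G (σ : Fin 10 → ZMod 2) : (G σ).Nodup :=
  Multiset.Nodup.map (fun _ _ h => congrArg Prod.fst h) Finset.univ.nodup

/-- indicator of one colour -/
def ind (i : Fin 10) : Fin 10 → ZMod 2 := fun m => if m = i then 1 else 0

/-- indicator of two colours -/
def ind2 (i j : Fin 10) : Fin 10 → ZMod 2 := fun m => if m = i ∨ m = j then 1 else 0

section pair
variable {X : Type*} [DecidableEq X]

/-- weight of the vertices with label `(i, 1)` -/
def Wt (lam : X → Fin 10 × ZMod 2) (γ : X → ZMod 2) (i : Fin 10) (s : Multiset X) : ZMod 2 :=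
  ev s (fun v => if lam v = (i, 1) then γ v else 0)

omit [DecidableEq X] in
lemma Wt_eq (lam : X → Fin 10 × ZMod 2) (γ : X → ZMod 2) (i : Fin 10)
    (s : Multiset X) (g : ZMod 2) (h : ∀ v ∈ s, lam v = (i, 1) → γ v = g) :
    Wt lam γ i s = (count (i, 1) (s.map lam) : ZMod 2) * g := by
  unfold Wt
  rw [← ev_ite_count]
  apply ev_congr
  intro v hv
  by_cases h' : lam v = (i, 1)
  · rw [if_pos h', if_pos h', h v hv h']
  · rw [if_neg h', if_neg h']

omit [DecidableEq X] in
lemma exists_g (γ : X → ZMod 2) (P : X → Prop) (s : Multiset X)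
    (h : ∀ v ∈ s, ∀ v' ∈ s, P v → P v' → γ v = γ v') : ∃ g, ∀ v ∈ s, P v → γ v = g := by
  by_cases h' : ∃ v ∈ s, P v
  · obtain ⟨v0, hv0, hP⟩ := h'
    exact ⟨γ v0, fun v hv hPv => h v hv v0 hv0 hPv hP⟩
  · exact ⟨0, fun v hv hPv => absurd ⟨v, hv, hPv⟩ h'⟩

lemma door_half (z : Multiset (Multiset X)) (lam : X → Fin 10 × ZMod 2)
    (hcyc : ∀ w, ev z (cob w) = 0) (hnc : ∀ s ∈ z, NoCompl (s.map lam)) (γ : X → ZMod 2)
    (i j : Fin 10) (hij : i ≠ j)
    (hCL : ∀ s ∈ z, (∀ m, m ≠ i → m ≠ j → (m, 0) ∈ s.map lam) → ∀ v ∈ s, ∀ v' ∈ s,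
      lam v = (i, 1) → lam v' = (i, 1) → γ v = γ v') :
    ev z (fun s => if s.map lam = G (ind i) then Wt lam γ i s else 0)
      = ev z (fun s => if s.map lam = G (ind2 i j) then Wt lam γ i s else 0) := by
  have hG1 : G (ind i) = (j, 0) ::ₘ F (ind i) j := by
    rw [G_eq (ind i) (ind i) j (fun _ _ => rfl)]; simp [ind, hij.symm]
  have hG2 : G (ind2 i j) = (j, 1) ::ₘ F (ind i) j := by
    rw [G_eq (ind2 i j) (ind i) j (fun m hm => by simp [ind, ind2, hm])]; simp [ind2]
  have hiF : ((i, 1) : Fin 10 × ZMod 2) ∈ F (ind i) j := mem_F.mpr ⟨hij, by simp [ind]⟩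
  have key := hcyc (fun r => if r.map lam = F (ind i) j then Wt lam γ i r else 0)
  rw [ev_congr (w' := fun s => (if s.map lam = G (ind i) then Wt lam γ i s else 0)
    + (if s.map lam = G (ind2 i j) then Wt lam γ i s else 0)), ev_add_fun] at key
  · have := zadd (ev z (fun s => if s.map lam = G (ind2 i j) then Wt lam γ i s else 0))
    linear_combination key - this
  · intro s hs
    rw [hG1, hG2]
    by_cases h : ∃ b, s.map lam = b ::ₘ F (ind i) j
    · obtain ⟨b, hb⟩ := h
      obtain ⟨g, hg⟩ := exists_g γ (fun v => lam v = (i, 1)) s (hCL s hs (by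
        intro m hmi hmj
        rw [hb]
        exact Multiset.mem_cons_of_mem (mem_F.mpr ⟨hmj, by simp [ind, hmi]⟩)))
      rw [cob_door lam (Wt lam γ i) hb g (by
        intro v hv hvF
        rw [Wt_eq lam γ i _ g (fun u hu => hg u (Multiset.mem_of_mem_erase hu)), hvF,
          Multiset.count_eq_one_of_mem (nodup_F _ _) hiF]
        simp), hb]
      simp only [Multiset.cons_inj_left]
      by_cases hbj : b.1 = j
      · have hbF : b ∉ F (ind i) j := fun h => (mem_F.mp h).1 hbj
        have hW : Wt lam γ i s = g := by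
          rw [Wt_eq lam γ i _ g hg, hb, Multiset.count_cons_of_ne,
            Multiset.count_eq_one_of_mem (nodup_F _ _) hiF]
          · simp
          · rintro rfl; exact hij hbj
        rw [Multiset.count_eq_zero.mpr hbF, hW]
        obtain ⟨b1, b2⟩ := b
        simp only at hbj
        subst hbj
        rcases zcases 0 b2 with rfl | rfl
        · simp
        · simp
      · have hbF : b ∈ F (ind i) j := by
          refine mem_F.mpr ⟨hbj, ?_⟩
          have h1 : (b.1, ind i b.1) ∈ s.map lam := by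
            rw [hb]; exact Multiset.mem_cons_of_mem (mem_F.mpr ⟨hbj, rfl⟩)
          have h2 : b ∈ s.map lam := by rw [hb]; exact Multiset.mem_cons_self _ _
          exact hnc s hs _ h2 _ h1 rfl
        rw [Multiset.count_eq_one_of_mem (nodup_F _ _) hbF, if_neg, if_neg]
        · have : ((1 : ℕ) : ZMod 2) + 1 = 0 := by decide
          rw [this]; simp
        · rintro rfl; exact hbj rfl
        · rintro rfl; exact hbj rfl
    · push Not at h
      rw [cob_door_zero lam _ h, if_neg (h _), if_neg (h _), add_zero]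

lemma door_pair (z : Multiset (Multiset X)) (lam : X → Fin 10 × ZMod 2)
    (hcyc : ∀ w, ev z (cob w) = 0) (hnc : ∀ s ∈ z, NoCompl (s.map lam)) (γ : X → ZMod 2)
    (i j : Fin 10) (hij : i ≠ j)
    (hCL : ∀ s ∈ z, (∀ m, m ≠ i → m ≠ j → (m, 0) ∈ s.map lam) → ∀ v ∈ s, ∀ v' ∈ s,
      (lam v = (i, 1) ∨ lam v = (j, 1)) → (lam v' = (i, 1) ∨ lam v' = (j, 1)) → γ v = γ v') :
    ev z (fun s => if s.map lam = G (ind i) then Wt lam γ i s else 0)
      = ev z (fun s => if s.map lam = G (ind j) then Wt lam γ j s else 0) := by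
  rw [door_half z lam hcyc hnc γ i j hij
      (fun s hs h v hv v' hv' h1 h2 => hCL s hs h v hv v' hv' (Or.inl h1) (Or.inl h2)),
    door_half z lam hcyc hnc γ j i hij.symm
      (fun s hs h v hv v' hv' h1 h2 => hCL s hs (fun m a b => h m b a) v hv v' hv'
        (Or.inr h1) (Or.inr h2))]
  have : ind2 j i = ind2 i j := by
    funext m; simp only [ind2, or_comm]
  rw [this]
  apply ev_congr
  intro s hs
  split_ifs with h
  · obtain ⟨g, hg⟩ := exists_g γ (fun v => lam v = (i, 1) ∨ lam v = (j, 1)) s (hCL s hs (by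
        intro m hmi hmj
        rw [h]
        exact mem_G.mpr (by simp [ind2, hmi, hmj])))
    rw [Wt_eq lam γ i s g (fun v hv h => hg v hv (Or.inl h)),
      Wt_eq lam γ j s g (fun v hv h => hg v hv (Or.inr h)), h,
      Multiset.count_eq_one_of_mem (nodup_G _) (mem_G.mpr (by simp [ind2])),
      Multiset.count_eq_one_of_mem (nodup_G _) (mem_G.mpr (by simp [ind2]))]
  · rfl

end pair

/-- twisting of labels -/
def twist (σ : Fin 10 → ZMod 2) (b : Fin 10 × ZMod 2) : ℕ × ZMod 2 :=
  (b.1.val, b.2 + σ b.1 + ((b.1.val + 1 : ℕ) : ZMod 2))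

lemma twist_injective (σ : Fin 10 → ZMod 2) : Function.Injective (twist σ) := by
  rintro ⟨a, s⟩ ⟨b, t⟩ h
  simp only [twist, Prod.mk.injEq] at h
  obtain ⟨h1, h2⟩ := h
  have := Fin.ext h1
  subst this
  simpa using h2

lemma G_twist (σ : Fin 10 → ZMod 2) : (G σ).map (twist σ) = full 10 0 := by
  unfold G
  rw [Multiset.map_map]
  have : (twist σ ∘ fun m => (m, σ m)) =
      fun m : Fin 10 => (m.val, ((m.val + 1 : ℕ) : ZMod 2)) := by
    funext m; simp [twist, zadd]
  rw [this]
  decide

lemma alt_twist (σ : Fin 10 → ZMod 2) (t : Multiset (Fin 10 × ZMod 2)) (ht : card t = 10) :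
    alt 10 0 (t.map (twist σ)) = if t = G σ then 1 else 0 := by
  split_ifs with h
  · rw [h, G_twist]; decide
  · by_contra hc
    have h1 := Alt_of_alt_ne_zero (by
      intro a ha
      obtain ⟨b, _, rfl⟩ := Multiset.mem_map.mp ha
      exact b.1.isLt) hc
    have h2 := h1.eq_full (by simpa using ht)
    rw [← G_twist σ] at h2
    exact h (Multiset.map_injective (twist_injective σ) h2)

end Vale.Agent.P052
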