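import Vale.Agent.P052.Main

/-!
The Veronese embedding of the real projective three-space in nine-dimensional Euclidean space,
and its cones in higher dimensions.
-/

namespace Vale.Agent.P052

open scoped RealInnerProductSpace

theorem abstract_cover {X : Type*} [MetricSpace X] (k : ℕ) (Ψ : V → X) (u : Fin k → X)
    (hcont : Continuous Ψ) (heven : ∀ x, Ψ (-x) = Ψ x)
    (h1 : ∀ x y : V, ‖x‖ = 1 → ‖y‖ = 1 → dist (Ψ x) (Ψ y) ^ 2 = 2 - 2 * ⟪x, y⟫ ^ 2)
    (h2 : ∀ (x : V) (i : Fin k), ‖x‖ = 1 → dist (Ψ x) (u i) ^ 2 = 2)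
    (h3 : ∀ i j : Fin k, i ≠ j → dist (u i) (u j) ^ 2 = 2) :
    ∃ Y : Set X, IsCompact Y ∧ Bornology.IsBounded Y ∧ 0 < Metric.diam Y ∧
      ∀ S : Fin (9 + k + 1) → Set X, Y = ⋃ i, S i → ∃ i, Metric.diam Y ≤ Metric.diam (S i) := by
  classical
  set Y : Set X := Ψ '' Metric.sphere 0 1 ∪ Set.range u with hY
  have hcomp : IsCompact Y :=
    ((isCompact_sphere 0 1).image hcont).union (Set.finite_range u).isCompact
  have hmem : ∀ x : V, ‖x‖ = 1 → Ψ x ∈ Y := fun x hx => Or.inl ⟨x, by simpa using hx, rfl⟩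
  have hsq : ∀ a b : X, dist a b ^ 2 ≤ 2 → dist a b ≤ Real.sqrt 2 :=
    fun a b h => Real.le_sqrt_of_sq_le h
  have hdiam : Metric.diam Y ≤ Real.sqrt 2 := by
    apply Metric.diam_le_of_forall_dist_le (Real.sqrt_nonneg 2)
    rintro a (⟨x, hx, rfl⟩ | ⟨i, rfl⟩) b (⟨y, hy, rfl⟩ | ⟨j, rfl⟩) <;> apply hsq
    · rw [h1 x y (by simpa using hx) (by simpa using hy)]; nlinarith [sq_nonneg ⟪x, y⟫]
    · exact (h2 x j (by simpa using hx)).le
    · rw [dist_comm]; exact (h2 y i (by simpa using hy)).le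
    · by_cases hij : i = j
      · subst hij; simp
      · exact (h3 i j hij).le
  refine ⟨Y, hcomp, hcomp.isBounded, ?_, ?_⟩
  · have e0 : ‖(EuclideanSpace.single (0 : Fin 4) (1 : ℝ) : V)‖ = 1 := by simp
    have e1 : ‖(EuclideanSpace.single (1 : Fin 4) (1 : ℝ) : V)‖ = 1 := by simp
    have h := h1 _ _ e0 e1
    have hi : ⟪(EuclideanSpace.single (0 : Fin 4) (1 : ℝ) : V),
        (EuclideanSpace.single (1 : Fin 4) (1 : ℝ) : V)⟫ = 0 := by
      simp [EuclideanSpace.inner_single_left]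
    rw [hi] at h
    refine lt_of_lt_of_le ?_ (Metric.dist_le_diam_of_mem hcomp.isBounded (hmem _ e0) (hmem _ e1))
    rcases (dist_nonneg (x := Ψ (EuclideanSpace.single (0 : Fin 4) (1 : ℝ)))
      (y := Ψ (EuclideanSpace.single (1 : Fin 4) (1 : ℝ)))).lt_or_eq with h' | h'
    · exact h'
    · rw [← h'] at h; norm_num at h
  · intro S hS
    by_contra hc
    push Not at hc
    obtain ⟨i0, -, hi0⟩ := Finset.exists_max_image Finset.univ (fun i => Metric.diam (S i))
      Finset.univ_nonempty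
    set D := Metric.diam (S i0) with hD
    have hD0 : 0 ≤ D := Metric.diam_nonneg
    have hD2 : D ^ 2 < 2 := by
      have : D < Real.sqrt 2 := lt_of_lt_of_le (hc i0) hdiam
      exact (Real.lt_sqrt hD0).mp this
    have hSb : ∀ i, Bornology.IsBounded (S i) := fun i =>
      hcomp.isBounded.subset (hS ▸ Set.subset_iUnion S i)
    have hin : ∀ i, ∀ a ∈ S i, ∀ b ∈ S i, dist a b ^ 2 ≤ D ^ 2 := by
      intro i a ha b hb
      have := (Metric.dist_le_diam_of_mem (hSb i) ha hb).trans (hi0 i (Finset.mem_univ i))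
      exact pow_le_pow_left₀ dist_nonneg this 2
    have hex : ∀ a ∈ Y, ∃ i, a ∈ S i := fun a ha => Set.mem_iUnion.mp (hS ▸ ha)
    choose f hf using fun i : Fin k => hex (u i) (Or.inr ⟨i, rfl⟩)
    have hfinj : Function.Injective f := by
      intro i j hij
      by_contra hne
      have := hin (f i) _ (hf i) _ (hij ▸ hf j)
      rw [h3 i j hne] at this
      linarith
    have hcard : Fintype.card {j : Fin (9 + k + 1) // j ∉ Set.range f} = 10 := by
      have := Fintype.card_subtype_compl (fun j : Fin (9 + k + 1) => j ∈ Set.range f)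
      rw [this, Fintype.card_fin]
      have h2 : Fintype.card {j : Fin (9 + k + 1) // j ∈ Set.range f} = k := by
        have := Set.card_range_of_injective hfinj
        rw [Fintype.card_fin] at this
        convert this
      omega
    let E := Fintype.equivFinOfCardEq hcard
    have hex2 : ∀ a ∈ Ψ '' Metric.sphere 0 1,
        ∃ j : {j : Fin (9 + k + 1) // j ∉ Set.range f}, a ∈ S j.1 := by
      rintro a ⟨x, hx, rfl⟩
      have hx' : ‖x‖ = 1 := by simpa using hx
      obtain ⟨j, hj⟩ := hex _ (hmem x hx')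
      refine ⟨⟨j, ?_⟩, hj⟩
      rintro ⟨i, rfl⟩
      have := hin (f i) _ hj _ (hf i)
      rw [h2 x i hx'] at this
      linarith
    let c : X → Fin 10 := fun a =>
      if ha : a ∈ Ψ '' Metric.sphere 0 1 then E (hex2 a ha).choose else 0
    have hδ : 0 < Real.sqrt (1 - D ^ 2 / 2) := Real.sqrt_pos.mpr (by linarith)
    refine no_colouring hδ (col := fun x => c (Ψ x)) ?_ (fun x => by simp only [heven])
    intro x y hx hy hxy
    have hx' : Ψ x ∈ Ψ '' Metric.sphere 0 1 := ⟨x, by simpa using hx, rfl⟩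
    have hy' : Ψ y ∈ Ψ '' Metric.sphere 0 1 := ⟨y, by simpa using hy, rfl⟩
    simp only [c, dif_pos hx', dif_pos hy'] at hxy
    have hxy' := E.injective hxy
    have := hin _ _ (hex2 _ hx').choose_spec _ (hxy' ▸ (hex2 _ hy').choose_spec)
    rw [h1 x y hx hy] at this
    rw [← Real.sqrt_sq_eq_abs]
    exact Real.sqrt_le_sqrt (by linarith)

/-- Veronese coordinates -/
noncomputable def ver (x : V) : Fin 9 → ℝ :=
  ![(x 0 ^ 2 + x 1 ^ 2 - x 2 ^ 2 - x 3 ^ 2) / 2, (x 0 ^ 2 - x 1 ^ 2 + x 2 ^ 2 - x 3 ^ 2) / 2,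
    (x 0 ^ 2 - x 1 ^ 2 - x 2 ^ 2 + x 3 ^ 2) / 2, x 0 * x 1 + x 2 * x 3, x 0 * x 1 - x 2 * x 3,
    x 0 * x 2 + x 1 * x 3, x 0 * x 2 - x 1 * x 3, x 0 * x 3 + x 1 * x 2, x 0 * x 3 - x 1 * x 2]

lemma ver_neg (x : V) : ver (-x) = ver x := by
  unfold ver; simp

lemma unit_sq {x : V} (hx : ‖x‖ = 1) : x 0 ^ 2 + x 1 ^ 2 + x 2 ^ 2 + x 3 ^ 2 = 1 := by
  have := EuclideanSpace.real_norm_sq_eq x
  rw [hx, Fin.sum_univ_four] at this
  linarith

lemma ver_dist {x y : V} (hx : ‖x‖ = 1) (hy : ‖y‖ = 1) :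
    ∑ j, (ver x j - ver y j) ^ 2 = 2 - 2 * ⟪x, y⟫ ^ 2 := by
  have a := unit_sq hx
  have b := unit_sq hy
  rw [inner_eq, Fin.sum_univ_four]
  simp only [ver, Fin.sum_univ_succ, Matrix.cons_val_zero, Matrix.cons_val_succ,
    Fin.sum_univ_zero]
  linear_combination (3 / 4 * (x 0 ^ 2 + x 1 ^ 2 + x 2 ^ 2 + x 3 ^ 2 + 1)
    + 1 / 2 * (y 0 ^ 2 + y 1 ^ 2 + y 2 ^ 2 + y 3 ^ 2)) * a
    + (3 / 4 * (y 0 ^ 2 + y 1 ^ 2 + y 2 ^ 2 + y 3 ^ 2 + 1) + 1 / 2) * b

lemma ver_sq {x : V} (hx : ‖x‖ = 1) : ∑ j, ver x j ^ 2 = 3 / 4 := by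
  have a := unit_sq hx
  simp only [ver, Fin.sum_univ_succ, Matrix.cons_val_zero, Matrix.cons_val_succ,
    Fin.sum_univ_zero]
  linear_combination (3 / 4 * (x 0 ^ 2 + x 1 ^ 2 + x 2 ^ 2 + x 3 ^ 2 + 1)) * a

lemma ver_cont (j : Fin 9) : Continuous (fun x : V => ver x j) := by
  fin_cases j <;> simp [ver] <;> fun_prop

theorem borsuk_fails (k : ℕ) :
    ∃ Y : Set (EuclideanSpace ℝ (Fin (9 + k))), IsCompact Y ∧ Bornology.IsBounded Y ∧
      0 < Metric.diam Y ∧ ∀ S : Fin (9 + k + 1) → Set (EuclideanSpace ℝ (Fin (9 + k))),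
        Y = ⋃ i, S i → ∃ i, Metric.diam Y ≤ Metric.diam (S i) := by
  obtain ⟨c, hc⟩ : ∃ c : ℝ, 2 * c + k * c ^ 2 = 1 / 4 := by
    have hk : (0 : ℝ) ≤ 1 + k / 4 := by positivity
    have hs := Real.sq_sqrt hk
    have hs0 := Real.sqrt_nonneg (1 + k / 4)
    generalize Real.sqrt (1 + k / 4) = r at hs hs0
    refine ⟨1 / (4 * (1 + r)), ?_⟩
    field_simp
    nlinarith
  refine abstract_cover k (fun x => WithLp.toLp 2 (Fin.append (ver x) (0 : Fin k → ℝ)))
    (fun i => WithLp.toLp 2 (Fin.append (0 : Fin 9 → ℝ)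
      (fun j : Fin k => (if j = i then 1 else 0) + c))) ?_ ?_ ?_ ?_ ?_
  · apply (PiLp.continuous_toLp 2 _).comp
    apply continuous_pi
    intro j
    refine Fin.addCases (fun j => ?_) (fun j => ?_) j
    · simpa using ver_cont j
    · simpa using continuous_const
  · intro x; simp only [ver_neg]
  · intro x y hx hy
    rw [EuclideanSpace.dist_sq_eq, Fin.sum_univ_add, ← ver_dist hx hy]
    simp [Real.dist_eq]
  · intro x i hx
    rw [EuclideanSpace.dist_sq_eq, Fin.sum_univ_add]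
    have h1 := ver_sq hx
    have h2 : ∑ j : Fin k, ((if j = i then (1 : ℝ) else 0) + c) ^ 2 = 1 + (2 * c + k * c ^ 2) := by
      have : ∀ j : Fin k, ((if j = i then (1 : ℝ) else 0) + c) ^ 2
          = (if j = i then 1 + 2 * c else 0) + c ^ 2 := by
        intro j; split_ifs <;> ring
      simp only [this, Finset.sum_add_distrib]
      simp; ring
    simp only [Real.dist_eq, sq_abs, Fin.append_left, Fin.append_right, Pi.zero_apply, sub_zero,
      zero_sub, neg_sq]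
    rw [h1, h2, hc]; norm_num
  · intro i j hij
    rw [EuclideanSpace.dist_sq_eq, Fin.sum_univ_add]
    have : ∀ m : Fin k, (((if m = i then (1 : ℝ) else 0) + c) - ((if m = j then 1 else 0) + c)) ^ 2
        = (if m = i then 1 else 0) + (if m = j then 1 else 0) := by
      intro m
      by_cases a : m = i
      · subst a; simp [hij]
      · by_cases b : m = j
        · subst b; simp [a]
        · simp [a, b]
    simp only [Real.dist_eq, sq_abs, Fin.append_left, Fin.append_right, Pi.zero_apply, sub_zero,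
      this, Finset.sum_add_distrib]
    simp; norm_num

end Vale.Agent.P052
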