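import Vale.Agent.P052.Six
import Vale.Agent.P052.Alt

/-!
Two-graphs on ten points: the combinatorial end of the argument.
-/

namespace Vale.Agent.P052

/-- value of the two-graph on a triple -/
def tt {ι : Type*} (α : ι → ι → ZMod 2) (a b c : ι) : ZMod 2 := α a b + α b c + α a c

lemma six (γ : Fin 6 → Fin 6 → ZMod 2) (hs : ∀ a b, γ a b = γ b a) (hd : ∀ a, γ a a = 0)
    (h : ∀ β : Fin 6 → ZMod 2, ∃ a b c : Fin 6, a < b ∧ b < c ∧ γ a b + β a + β b = 1 ∧
      γ b c + β b + β c = 1 ∧ γ a c + β a + β c = 0) :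
    tt γ 0 1 2 + tt γ 3 4 5 = 1 ∧
      ¬ (tt γ 0 1 2 = tt γ 0 1 3 ∧ tt γ 0 1 2 = tt γ 0 2 3 ∧ tt γ 0 1 2 = tt γ 1 2 3) := by
  set x : Fin 6 → Fin 6 → ZMod 2 := fun i j => γ i j + γ 0 i + γ 0 j with hx
  have hm : mat (x 1 2) (x 1 3) (x 1 4) (x 1 5) (x 2 3) (x 2 4) (x 2 5) (x 3 4) (x 3 5) (x 4 5)
      = x := by
    have hxs : ∀ a b, x a b = x b a := by
      intro a b; simp only [hx, hs a b]; ring
    have hxd : ∀ a, x a a = 0 := by
      intro a; simp only [hx, hd a, zero_add, zadd]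
    have hx0 : ∀ a, x 0 a = 0 := by
      intro a; simp only [hx, hd 0, add_zero, zadd]
    have hx0' : ∀ a, x a 0 = 0 := fun a => by rw [hxs, hx0]
    clear_value x
    funext i j
    fin_cases i <;> fin_cases j <;> simp [mat, hxd, hx0, hx0'] <;> exact hxs _ _
  have := six_core (x 1 2) (x 1 3) (x 1 4) (x 1 5) (x 2 3) (x 2 4) (x 2 5) (x 3 4) (x 3 5) (x 4 5)
    (by
      intro b1 b2 b3 b4 b5
      rw [hm]
      obtain ⟨a, b, c, hab, hbc, h1, h2, h3⟩ := h (fun i => ![0, b1, b2, b3, b4, b5] i + γ 0 i)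
      refine ⟨(a, b, c), mem_trip a b c hab hbc, ?_, ?_, ?_⟩
      · simp only [hx]; linear_combination h1
      · simp only [hx]; linear_combination h2
      · simp only [hx]; linear_combination h3)
  simp only [hx] at this
  obtain ⟨h1, h2⟩ := this
  unfold tt
  refine ⟨?_, ?_⟩
  · linear_combination h1 - zadd (γ 0 3) - zadd (γ 0 4) - zadd (γ 0 5)
  · rintro ⟨h3, h4, h5⟩
    apply h2
    refine ⟨?_, ?_, ?_⟩
    · linear_combination h3
    · linear_combination h4
    · linear_combination h5 - zadd (γ 0 1) - zadd (γ 0 2) - zadd (γ 0 3)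

/-- The consequence of Ky Fan's lemma on the three-sphere. -/
def KF (α : Fin 10 → Fin 10 → ZMod 2) : Prop :=
  ∀ (φ : Fin 10 → ℕ) (β : Fin 10 → ZMod 2), (∀ i j, φ i = φ j → α i j = β i + β j) →
    ∃ a b c d : Fin 10, φ a < φ b ∧ φ b < φ c ∧ φ c < φ d ∧ α a b + β a + β b = 1 ∧
      α b c + β b + β c = 1 ∧ α a c + β a + β c = 0

lemma KF.perm {α : Fin 10 → Fin 10 → ZMod 2} (h : KF α) (π : Equiv.Perm (Fin 10)) :
    KF (fun a b => α (π a) (π b)) := by
  intro φ β hc
  obtain ⟨a, b, c, d, h1, h2, h3, h4, h5, h6⟩ := h (fun i => φ (π.symm i)) (fun i => β (π.symm i))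
    (fun i j hij => by simpa using hc _ _ hij)
  exact ⟨π.symm a, π.symm b, π.symm c, π.symm d, h1, h2, h3, by simpa using h4,
    by simpa using h5, by simpa using h6⟩

lemma compl_six {α : Fin 10 → Fin 10 → ZMod 2} (hs : ∀ a b, α a b = α b a) (hd : ∀ a, α a a = 0)
    (h : KF α) (q : Fin 6 → Fin 10) (φ : Fin 10 → ℕ) (h6 : ∀ i, φ i ≤ 6)
    (hq : ∀ i (hi : φ i < 6), q ⟨φ i, hi⟩ = i) (u : Fin 10)
    (htriv : ∀ i j, φ i = 6 → φ j = 6 → tt α u i j = 0) :
    tt α (q 0) (q 1) (q 2) + tt α (q 3) (q 4) (q 5) = 1 ∧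
      ¬ (tt α (q 0) (q 1) (q 2) = tt α (q 0) (q 1) (q 3) ∧
        tt α (q 0) (q 1) (q 2) = tt α (q 0) (q 2) (q 3) ∧
        tt α (q 0) (q 1) (q 2) = tt α (q 1) (q 2) (q 3)) := by
  refine six (fun a b => α (q a) (q b)) (fun a b => hs _ _) (fun a => hd _) ?_
  intro β'
  obtain ⟨a, b, c, d, h1, h2, h3, h4, h5, h7⟩ :=
    h φ (fun i => if hi : φ i < 6 then β' ⟨φ i, hi⟩ else α u i) (by
      intro i j hij
      by_cases hi : φ i < 6
      · have hj : φ j < 6 := hij ▸ hi
        have : i = j := by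
          rw [← hq i hi, ← hq j hj]; congr 1; exact Fin.ext hij
        subst this
        rw [hd, zadd]
      · have hj : ¬ φ j < 6 := hij ▸ hi
        have := htriv i j (by have := h6 i; omega) (by have := h6 j; omega)
        simp only [dif_neg hi, dif_neg hj]
        unfold tt at this
        linear_combination this - zadd (α u i) - zadd (α u j))
  have hd6 := h6 d
  have hc : φ c < 6 := by omega
  have hb : φ b < 6 := by omega
  have ha : φ a < 6 := by omega
  simp only [dif_pos ha, dif_pos hb, dif_pos hc] at h4 h5 h7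
  refine ⟨⟨φ a, ha⟩, ⟨φ b, hb⟩, ⟨φ c, hc⟩, h1, h2, ?_, ?_, ?_⟩
  · simpa only [hq] using h4
  · simpa only [hq] using h5
  · simpa only [hq] using h7

lemma five_false {α : Fin 10 → Fin 10 → ZMod 2} (hs : ∀ a b, α a b = α b a)
    (hd : ∀ a, α a a = 0) (h : KF α) (u : Fin 10)
    (htriv : ∀ i j : Fin 10, i.val < 5 → j.val < 5 → tt α u i j = 0) : False := by
  have key : ∀ (q : Fin 6 → Fin 10) (φ : Fin 10 → ℕ), (∀ i, φ i ≤ 6) →
      (∀ i (hi : φ i < 6), q ⟨φ i, hi⟩ = i) → (∀ i, φ i = 6 → i.val < 5) → _ :=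
    fun q φ h6 hq h5 => compl_six hs hd h q φ h6 hq u
      (fun i j hi hj => htriv i j (h5 i hi) (h5 j hj))
  have hz : ∀ a : Fin 10, tt α a 9 9 = 0 := by
    intro a; unfold tt; rw [hd, add_zero, zadd]
  have k0 := (key ![5, 6, 7, 8, 9, 9] ![6, 6, 6, 6, 6, 0, 1, 2, 3, 4] (by decide) (by decide)
    (by decide))
  have k1 := (key ![5, 6, 8, 7, 9, 9] ![6, 6, 6, 6, 6, 0, 1, 3, 2, 4] (by decide) (by decide)
    (by decide)).1
  have k2 := (key ![5, 7, 8, 6, 9, 9] ![6, 6, 6, 6, 6, 0, 3, 1, 2, 4] (by decide) (by decide)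
    (by decide)).1
  have k3 := (key ![6, 7, 8, 5, 9, 9] ![6, 6, 6, 6, 6, 3, 0, 1, 2, 4] (by decide) (by decide)
    (by decide)).1
  simp only [Matrix.cons_val, hz, add_zero] at k0 k1 k2 k3
  exact k0.2 ⟨by rw [k0.1, k1], by rw [k0.1, k2], by rw [k0.1, k3]⟩

lemma eight_false {α : Fin 10 → Fin 10 → ZMod 2} (hs : ∀ a b, α a b = α b a)
    (hd : ∀ a, α a a = 0) (h : KF α)
    (h0 : ∀ a b c : Fin 10, a.val < 4 → b.val < 4 → c.val < 4 → tt α a b c = 0)
    (h1 : ∀ a b c : Fin 10, 4 ≤ a.val → a.val < 8 → b.val < 4 → c.val < 4 → b.val + 4 ≠ a.val →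
      c.val + 4 ≠ a.val → tt α a b c = 0) : False := by
  have key : ∀ (q : Fin 6 → Fin 10) (φ : Fin 10 → ℕ), (∀ i, φ i ≤ 6) →
      (∀ i (hi : φ i < 6), q ⟨φ i, hi⟩ = i) → (∀ i, φ i = 6 → i.val < 4) → _ :=
    fun q φ h6 hq h5 => compl_six hs hd h q φ h6 hq 0
      (fun i j hi hj => h0 0 i j (by decide) (h5 i hi) (h5 j hj))
  have key' : ∀ (u : Fin 10) (q : Fin 6 → Fin 10) (φ : Fin 10 → ℕ), (∀ i, φ i ≤ 6) →
      (∀ i (hi : φ i < 6), q ⟨φ i, hi⟩ = i) → 4 ≤ u.val → u.val < 8 →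
      (∀ i, φ i = 6 → i = u ∨ (i.val < 4 ∧ i.val + 4 ≠ u.val)) → _ :=
    fun u q φ h6 hq hu hu' h5 => (compl_six hs hd h q φ h6 hq u (by
      intro i j hi hj
      rcases h5 i hi with rfl | hi'
      · unfold tt; rw [hd, zero_add, zadd]
      · rcases h5 j hj with rfl | hj'
        · unfold tt; rw [hd, add_zero, hs i j, zadd]
        · exact h1 u i j hu hu' hi'.1 hj'.1 hi'.2 hj'.2)).1
  have k0 := (key ![4, 5, 6, 7, 8, 9] ![6, 6, 6, 6, 0, 1, 2, 3, 4, 5] (by decide) (by decide)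
    (by decide))
  have a457 := (key ![4, 5, 7, 6, 8, 9] ![6, 6, 6, 6, 0, 1, 3, 2, 4, 5] (by decide) (by decide)
    (by decide)).1
  have a467 := (key ![4, 6, 7, 5, 8, 9] ![6, 6, 6, 6, 0, 3, 1, 2, 4, 5] (by decide) (by decide)
    (by decide)).1
  have a567 := (key ![5, 6, 7, 4, 8, 9] ![6, 6, 6, 6, 3, 0, 1, 2, 4, 5] (by decide) (by decide)
    (by decide)).1
  -- vertex 0 replaces 4
  have b056 := key' 4 ![0, 5, 6, 7, 8, 9] ![0, 6, 6, 6, 6, 1, 2, 3, 4, 5] (by decide) (by decide)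
    (by decide) (by decide) (by decide)
  have b057 := key' 4 ![0, 5, 7, 6, 8, 9] ![0, 6, 6, 6, 6, 1, 3, 2, 4, 5] (by decide) (by decide)
    (by decide) (by decide) (by decide)
  have b067 := key' 4 ![0, 6, 7, 5, 8, 9] ![0, 6, 6, 6, 6, 3, 1, 2, 4, 5] (by decide) (by decide)
    (by decide) (by decide) (by decide)
  -- vertex 1 replaces 5
  have b167 := key' 5 ![1, 6, 7, 4, 8, 9] ![6, 0, 6, 6, 3, 6, 1, 2, 4, 5] (by decide) (by decide)
    (by decide) (by decide) (by decide)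
  -- vertex 2 replaces 6
  have b257 := key' 6 ![2, 5, 7, 4, 8, 9] ![6, 6, 0, 6, 3, 1, 6, 2, 4, 5] (by decide) (by decide)
    (by decide) (by decide) (by decide)
  have t601 := h1 6 0 1 (by decide) (by decide) (by decide) (by decide) (by decide) (by decide)
  have t701 := h1 7 0 1 (by decide) (by decide) (by decide) (by decide) (by decide) (by decide)
  have t502 := h1 5 0 2 (by decide) (by decide) (by decide) (by decide) (by decide) (by decide)
  have t702 := h1 7 0 2 (by decide) (by decide) (by decide) (by decide) (by decide) (by decide)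
  simp only [Matrix.cons_val] at k0 a457 a467 a567 b056 b057 b067 b167 b257
  obtain ⟨a456, k0⟩ := k0
  apply k0
  unfold tt at *
  rw [hs 6 0, hs 6 1] at t601
  rw [hs 7 0, hs 7 1] at t701
  rw [hs 5 0, hs 5 2] at t502
  rw [hs 7 0, hs 7 2] at t702
  refine ⟨?_, ?_, ?_⟩
  · grind
  · grind
  · grind

theorem two_graph_false {α : Fin 10 → Fin 10 → ZMod 2} (hs : ∀ a b, α a b = α b a)
    (hd : ∀ a, α a a = 0) (h : KF α) (i j : Fin 4 → Fin 10) (hi : Function.Injective i)
    (hj : ∀ k l, j k ≠ i l) (h0 : ∀ k l m, tt α (i k) (i l) (i m) = 0)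
    (h1 : ∀ k l m, l ≠ k → m ≠ k → tt α (j k) (i l) (i m) = 0) : False := by
  by_cases hinj : Function.Injective j
  · let f : Fin 4 ⊕ Fin 4 → Fin 10 := Sum.elim (fun k => ⟨k.val, by omega⟩)
      (fun k => ⟨k.val + 4, by omega⟩)
    have hf : Function.Injective f := by decide
    have hg : Function.Injective (Sum.elim i j) := by
      rintro (a | a) (b | b) hab
      · rw [hi hab]
      · exact absurd hab.symm (hj _ _)
      · exact absurd hab (hj _ _)
      · rw [hinj hab]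
    obtain ⟨π, hπ⟩ := Equiv.Perm.exists_extending_pair _ _ hf hg
    have e1 : ∀ (a : Fin 10) (ha : a.val < 4), π a = i ⟨a.val, ha⟩ :=
      fun a ha => hπ (Sum.inl ⟨a.val, ha⟩)
    have e2 : ∀ (a : Fin 10) (_ : 4 ≤ a.val) (ha : a.val < 8), π a = j ⟨a.val - 4, by omega⟩ := by
      intro a h4 ha
      have := hπ (Sum.inr ⟨a.val - 4, by omega⟩)
      simp only [f, Sum.elim_inr] at this
      rw [← this]
      congr 1
      exact Fin.ext (by simp; omega)
    refine eight_false (α := fun a b => α (π a) (π b)) (fun a b => hs _ _) (fun a => hd _)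
      (h.perm π) ?_ ?_
    · intro a b c ha hb hc
      have := h0 ⟨a.val, ha⟩ ⟨b.val, hb⟩ ⟨c.val, hc⟩
      rw [← e1 a ha, ← e1 b hb, ← e1 c hc] at this
      exact this
    · intro a b c ha ha' hb hc hba hca
      have := h1 ⟨a.val - 4, by omega⟩ ⟨b.val, hb⟩ ⟨c.val, hc⟩
        (by intro h; simp only [Fin.mk.injEq] at h; omega)
        (by intro h; simp only [Fin.mk.injEq] at h; omega)
      rw [← e2 a ha ha', ← e1 b hb, ← e1 c hc] at this
      exact this
  · simp only [Function.Injective, not_forall] at hinj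
    obtain ⟨k, k', hkk, hne⟩ := hinj
    obtain ⟨u, hu, hu'⟩ : ∃ u : Fin 4, u ≠ k ∧ u ≠ k' := by
      clear hkk hne; revert k k'; decide
    let f : Option (Fin 4) → Fin 10 := fun o => o.elim 4 (Fin.castLE (by decide))
    have hf : Function.Injective f := by decide
    have hg : Function.Injective (fun o : Option (Fin 4) => o.elim (j k) i) := by
      rintro (_ | a) (_ | b) hab
      · rfl
      · exact absurd hab (hj _ _)
      · exact absurd hab.symm (hj _ _)
      · rw [hi hab]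
    obtain ⟨π, hπ⟩ := Equiv.Perm.exists_extending_pair _ _ hf hg
    have e1 : ∀ (a : Fin 10) (ha : a.val < 4), π a = i ⟨a.val, ha⟩ :=
      fun a ha => hπ (some ⟨a.val, ha⟩)
    have e2 : π 4 = j k := hπ none
    have hw : ∀ l, tt α (j k) (i u) (i l) = 0 := by
      intro l
      by_cases hl : l = k
      · rw [hkk]; exact h1 k' u l hu' (hl ▸ hne)
      · exact h1 k u l hu hl
    refine five_false (α := fun a b => α (π a) (π b)) (fun a b => hs _ _) (fun a => hd _)
      (h.perm π) ⟨u.val, by omega⟩ ?_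
    intro a b ha hb
    have eu : π ⟨u.val, by omega⟩ = i u := e1 _ u.isLt
    show α (π _) (π a) + α (π a) (π b) + α (π _) (π b) = 0
    rw [eu]
    by_cases ha4 : a.val < 4
    · by_cases hb4 : b.val < 4
      · rw [e1 a ha4, e1 b hb4]; exact h0 _ _ _
      · have : b = 4 := Fin.ext (by simp; omega)
        rw [this, e2, e1 a ha4]
        have := hw ⟨a.val, ha4⟩
        unfold tt at this
        rw [hs (i ⟨a.val, ha4⟩) (j k), hs (i u) (j k)]
        linear_combination this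
    · have : a = 4 := Fin.ext (by simp; omega)
      rw [this, e2]
      by_cases hb4 : b.val < 4
      · rw [e1 b hb4]
        have := hw ⟨b.val, hb4⟩
        unfold tt at this
        rw [hs (i u) (j k)]
        linear_combination this
      · have : b = 4 := Fin.ext (by simp; omega)
        rw [this, e2, hd, add_zero, zadd]

end Vale.Agent.P052
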