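import Vale.Agent.P052.Signs
import Vale.Agent.P052.TwoGraph

/-!
The unit three-sphere has no even colouring with ten colours in which equally coloured vectors
are uniformly far from orthogonal.
-/

namespace Vale.Agent.P052

open Multiset
open scoped RealInnerProductSpace

lemma four_of_alt {L : Type*} (Θ : L → ℕ × ZMod 2) (t : Multiset L) (hc : card t = 4) {N : ℕ}
    (hN : ∀ a, (Θ a).1 < N) (h : alt N 0 (t.map Θ) ≠ 0) :
    t.Nodup ∧ ∃ e : Fin 4 → L, (∀ k, e k ∈ t) ∧ (Θ (e 0)).1 < (Θ (e 1)).1 ∧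
      (Θ (e 1)).1 < (Θ (e 2)).1 ∧ (Θ (e 2)).1 < (Θ (e 3)).1 ∧
      (Θ (e 0)).2 = 1 ∧ (Θ (e 1)).2 = 0 ∧ (Θ (e 2)).2 = 1 := by
  have h1 := Alt_of_alt_ne_zero (by
    intro a ha
    obtain ⟨b, _, rfl⟩ := Multiset.mem_map.mp ha
    exact hN b) h
  obtain ⟨a, b, c, d, hab, hbc, hcd, ht⟩ := h1.card_four (by simpa using hc)
  refine ⟨?_, ?_⟩
  · apply Multiset.Nodup.of_map Θ
    rw [ht]
    simp only [insert_eq_cons, nodup_cons, mem_cons, Prod.mk.injEq, mem_singleton,
      nodup_singleton]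
    refine ⟨?_, ?_, ?_, trivial⟩ <;> push Not <;> (try refine ⟨?_, ?_⟩) <;>
      (try refine ⟨?_, ?_⟩) <;> intro h <;> omega
  · obtain ⟨e0, h0, g0⟩ := Multiset.mem_map.mp (show (a, (0 : ZMod 2) + 1) ∈ t.map Θ by simp [ht])
    obtain ⟨e1, h1, g1⟩ := Multiset.mem_map.mp (show (b, (0 : ZMod 2)) ∈ t.map Θ by simp [ht])
    obtain ⟨e2, h2, g2⟩ := Multiset.mem_map.mp (show (c, (0 : ZMod 2) + 1) ∈ t.map Θ by simp [ht])
    obtain ⟨e3, h3, g3⟩ := Multiset.mem_map.mp (show (d, (0 : ZMod 2)) ∈ t.map Θ by simp [ht])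
    refine ⟨![e0, e1, e2, e3], ?_, ?_⟩
    · intro k; fin_cases k <;> simpa
    · simp [g0, g1, g2, g3, hab, hbc, hcd]

/-- a coordinate vector as a Euclidean vector -/
def tv (p : Fin 4 → ℝ) : V := WithLp.toLp 2 p

lemma tv_neg (p : Fin 4 → ℝ) : tv (-p) = -tv p := rfl
lemma tv_sub (p q : Fin 4 → ℝ) : tv (p - q) = tv p - tv q := rfl

lemma tv_sq (p : Fin 4 → ℝ) : ‖tv p‖ ^ 2 = |p 0| ^ 2 + |p 1| ^ 2 + |p 2| ^ 2 + |p 3| ^ 2 := by
  rw [EuclideanSpace.real_norm_sq_eq, Fin.sum_univ_four]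
  simp [tv]

lemma tv_le (p : Fin 4 → ℝ) : ‖tv p‖ ≤ ∑ k, |p k| := by
  rw [Fin.sum_univ_four]
  apply le_of_sq_le_sq _ (by positivity) |>.trans le_rfl
  rw [tv_sq]
  have := abs_nonneg (p 0); have := abs_nonneg (p 1)
  have := abs_nonneg (p 2); have := abs_nonneg (p 3)
  nlinarith [mul_nonneg (abs_nonneg (p 0)) (abs_nonneg (p 1)),
    mul_nonneg (abs_nonneg (p 0)) (abs_nonneg (p 2)),
    mul_nonneg (abs_nonneg (p 0)) (abs_nonneg (p 3)),
    mul_nonneg (abs_nonneg (p 1)) (abs_nonneg (p 2)),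
    mul_nonneg (abs_nonneg (p 1)) (abs_nonneg (p 3)),
    mul_nonneg (abs_nonneg (p 2)) (abs_nonneg (p 3))]

lemma tv_ge {p : Fin 4 → ℝ} (hp : OnS p) : 1 / 2 ≤ ‖tv p‖ := by
  unfold OnS at hp
  rw [Fin.sum_univ_four] at hp
  apply le_of_sq_le_sq _ (norm_nonneg _) |>.trans le_rfl
  rw [tv_sq]
  nlinarith [sq_nonneg (|p 0| - |p 1|), sq_nonneg (|p 0| - |p 2|), sq_nonneg (|p 0| - |p 3|),
    sq_nonneg (|p 1| - |p 2|), sq_nonneg (|p 1| - |p 3|), sq_nonneg (|p 2| - |p 3|)]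

lemma tv_dist (p q : Fin 4 → ℝ) : ‖tv p - tv q‖ ≤ 4 * ‖p - q‖ := by
  rw [← tv_sub]
  refine (tv_le _).trans ?_
  rw [Fin.sum_univ_four]
  have h := fun k => norm_le_pi_norm (p - q) k
  simp only [Real.norm_eq_abs] at h
  linarith [h 0, h 1, h 2, h 3]

theorem no_colouring {δ : ℝ} (hδ : 0 < δ) {col : V → Fin 10} (h : Sep δ col)
    (heven : ∀ x, col (-x) = col x) : False := by
  classical
  obtain ⟨η, hη1, hη2, hη3⟩ := exists_signs hδ h
  obtain ⟨z, hz1, hz2, hz3⟩ := exists_cycle 3 (δ / 32) (by positivity)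
  set cl : (Fin 4 → ℝ) → Fin 10 := fun p => col (‖tv p‖⁻¹ • tv p) with hcl
  have hbig : ∀ p, OnS p → ∀ x : V, ‖x‖ = 1 → col x = cl p → δ / 2 ≤ |⟪x, tv p⟫| := by
    intro p hp x hx hc
    have h1 := tv_ge hp
    have h0 : 0 < ‖tv p‖ := by linarith
    have h2 := h x (‖tv p‖⁻¹ • tv p) hx
      (by rw [norm_smul, norm_inv, norm_norm, inv_mul_cancel₀ h0.ne']) hc
    rw [real_inner_smul_right, abs_mul, abs_inv, abs_norm, le_inv_mul_iff₀ h0] at h2
    nlinarith
  have hdiff : ∀ p q : Fin 4 → ℝ, ‖p - q‖ ≤ δ / 32 → ∀ x : V, ‖x‖ = 1 →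
      |⟪x, tv p⟫ - ⟪x, tv q⟫| ≤ δ / 8 := by
    intro p q hpq x hx
    rw [← inner_sub_right]
    refine (abs_real_inner_le_norm _ _).trans ?_
    rw [hx, one_mul]
    linarith [tv_dist p q]
  have hrob : ∀ p q, OnS p → OnS q → ‖p - q‖ ≤ δ / 32 → Rob δ col (cl p) (tv q) := by
    intro p q hp hq hpq
    refine ⟨(tv_le q).trans hq.le, fun x hx hc => ?_⟩
    have h1 := hbig p hp x hx hc
    have h2 := hdiff p q hpq x hx
    have h3 := abs_sub_abs_le_abs_sub ⟪x, tv p⟫ ⟪x, tv q⟫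
    linarith
  have hloc : ∀ p q, OnS p → ‖p - q‖ ≤ δ / 32 → η (cl p) (tv p) = η (cl p) (tv q) := by
    intro p q hp hpq
    apply hη2
    intro x hx hc
    have h1 := hbig p hp x hx hc
    have h2 := abs_le.mp (hdiff p q hpq x hx)
    unfold ng
    by_cases a : ⟪x, tv p⟫ < 0
    · rw [abs_of_neg a] at h1
      rw [if_pos a, if_pos (by linarith)]
    · rw [abs_of_nonneg (not_lt.mp a)] at h1
      rw [if_neg a, if_neg (by linarith)]
  set α : Fin 10 → Fin 10 → ZMod 2 := fun i j =>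
    if hy : ∃ y, Rob δ col i y ∧ Rob δ col j y then η i hy.choose + η j hy.choose else 0 with hα
  have hαval : ∀ i j y, Rob δ col i y → Rob δ col j y → α i j = η i y + η j y := by
    intro i j y hi hj
    have hy : ∃ y, Rob δ col i y ∧ Rob δ col j y := ⟨y, hi, hj⟩
    simp only [hα, dif_pos hy]
    exact hη3 i j _ _ hy.choose_spec.1 hy.choose_spec.2 hi hj
  have hs : ∀ i j, α i j = α j i := by
    intro i j
    by_cases hy : ∃ y, Rob δ col i y ∧ Rob δ col j y
    · obtain ⟨y, hi, hj⟩ := hy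
      rw [hαval i j y hi hj, hαval j i y hj hi, add_comm]
    · have hy' : ¬ ∃ y, Rob δ col j y ∧ Rob δ col i y := fun ⟨y, a, b⟩ => hy ⟨y, b, a⟩
      simp only [hα, dif_neg hy, dif_neg hy']
  have hd : ∀ i, α i i = 0 := by
    intro i
    simp only [hα]
    split_ifs
    · exact zadd _
    · rfl
  set lb : (Fin 4 → ℝ) → Fin 10 × ZMod 2 := fun p => (cl p, η (cl p) (tv p)) with hlb
  have hpair : ∀ p q, OnS p → OnS q → ‖p - q‖ ≤ δ / 32 →
      α (lb p).1 (lb q).1 = (lb p).2 + (lb q).2 := by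
    intro p q hp hq hpq
    simp only [hlb]
    rw [hαval (cl p) (cl q) (tv q) (hrob p q hp hq hpq)
      (hrob q q hq hq (by simpa using by positivity)), hloc p q hp hpq]
  have hodd : ∀ p, OnS p → lb (-p) = flip (lb p) := by
    intro p hp
    have : cl (-p) = cl p := by
      simp only [hcl, tv_neg, norm_neg, smul_neg, heven]
    simp only [hlb, flip, this, tv_neg]
    rw [hη1 _ _ (hrob p p hp hp (by simpa using by positivity))]
  clear_value lb α
  have hreal : ∀ s ∈ z, ∀ a ∈ s.map lb, ∀ b ∈ s.map lb, α a.1 b.1 = a.2 + b.2 := by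
    intro s hs a ha b hb
    obtain ⟨p, hp, rfl⟩ := Multiset.mem_map.mp ha
    obtain ⟨q, hq, rfl⟩ := Multiset.mem_map.mp hb
    exact hpair p q ((hz1 s hs).2.1 p hp) ((hz1 s hs).2.1 q hq) ((hz1 s hs).2.2 p hp q hq)
  have hky : ∀ (φ : Fin 10 → ℕ) (β : Fin 10 → ZMod 2) (N : ℕ), (∀ i, φ i < N) →
      (∀ i j, φ i = φ j → α i j = β i + β j) →
      ev z (fun s => alt N 0 ((s.map lb).map (fun a => (φ a.1, a.2 + β a.1)))) = 1 := by
    intro φ β N hN hc
    simp only [Multiset.map_map]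
    apply hz3 N
    refine ⟨fun p => hN _, ?_, ?_⟩
    · intro p hp
      simp only [Function.comp, hodd p hp, flip, Prod.mk.injEq, true_and]
      ring
    · intro p q hp hq hpq hφ
      have h1 := hc _ _ hφ
      have h2 := hpair p q hp hq hpq
      simp only [Function.comp]
      linear_combination h1 - h2 + zadd (β (lb p).1) - zadd (lb q).2
  have hKF : KF α := by
    intro φ β hc
    have h1 := hky φ β (Finset.univ.sup φ + 1)
      (fun i => Nat.lt_succ_of_le (Finset.le_sup (Finset.mem_univ i))) hc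
    obtain ⟨s, hs, h2⟩ := exists_of_ev_ne_zero (h1 ▸ one_ne_zero)
    obtain ⟨-, e, he, l1, l2, l3, s0, s1, s2⟩ := four_of_alt _ (s.map lb)
      (by simpa using (hz1 s hs).1)
      (fun a => Nat.lt_succ_of_le (Finset.le_sup (f := φ) (Finset.mem_univ a.1))) h2
    simp only at l1 l2 l3 s0 s1 s2
    refine ⟨(e 0).1, (e 1).1, (e 2).1, (e 3).1, l1, l2, l3, ?_, ?_, ?_⟩
    · rw [hreal s hs _ (he 0) _ (he 1)]; linear_combination s0 + s1
    · rw [hreal s hs _ (he 1) _ (he 2)]; linear_combination s1 + s2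
    · rw [hreal s hs _ (he 0) _ (he 2)]; linear_combination s0 + s2 + zadd 1
  have h1 := hky (fun i => i.val) (fun _ => 0) 10 (fun i => i.isLt) (by
    intro i j hij
    rw [Fin.ext hij, hd, add_zero])
  obtain ⟨t, ht1, ht2⟩ := exists_odd_class (fun s => s.map lb) z
    (fun t => alt 10 0 (t.map (fun a => (a.1.val, a.2 + 0)))) h1
  obtain ⟨s, hs', hst⟩ := exists_of_ev_ne_zero (ht2 ▸ one_ne_zero)
  have hst : s.map lb = t := by
    by_contra hc
    exact hst (if_neg hc)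
  obtain ⟨hnd, e, he, l1, l2, l3, -⟩ := four_of_alt _ t
    (by rw [← hst]; simpa using (hz1 s hs').1) (fun a => a.1.isLt) ht1
  simp only at l1 l2 l3
  have hinj : Function.Injective (fun k => (e k).1) := by
    apply StrictMono.injective
    rw [Fin.strictMono_iff_lt_succ]
    intro k
    fin_cases k
    · exact l1
    · exact l2
    · exact l3
  have hnb : ∀ k, ∃ s ∈ z, ∃ b, b ≠ e k ∧ b ∉ t.erase (e k) ∧ s.map lb = b ::ₘ t.erase (e k) := by
    intro k
    apply exists_neighbour lb z hz2 (e k) _ (hnd.erase _) (hnd.notMem_erase)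
    rw [Multiset.cons_erase (he k)]
    exact ht2
  choose sk hsk b hb1 hb2 hb3 using hnb
  have hmem : ∀ k l, l ≠ k → e l ∈ t.erase (e k) := by
    intro k l hlk
    exact (Multiset.mem_erase_of_ne (fun h => hlk (hinj (congrArg Prod.fst h)))).mpr (he l)
  have hee : ∀ k l, α (e k).1 (e l).1 = (e k).2 + (e l).2 :=
    fun k l => hreal s hs' _ (hst ▸ he k) _ (hst ▸ he l)
  have hbe : ∀ k l, l ≠ k → α (b k).1 (e l).1 = (b k).2 + (e l).2 := by
    intro k l hlk
    apply hreal (sk k) (hsk k)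
    · rw [hb3]; exact Multiset.mem_cons_self _ _
    · rw [hb3]; exact Multiset.mem_cons_of_mem (hmem k l hlk)
  refine two_graph_false hs hd hKF (fun k => (e k).1) (fun k => (b k).1) hinj ?_ ?_ ?_
  · intro k l hkl
    by_cases hlk : l = k
    · subst hlk
      obtain ⟨m, hm⟩ := exists_ne l
      have a1 := hbe l m hm
      rw [hkl, hee] at a1
      exact hb1 l (Prod.ext hkl (by linear_combination -a1))
    · have a1 := hbe k l hlk
      rw [hkl, hd] at a1
      apply hb2 k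
      have : b k = e l := Prod.ext hkl (by linear_combination -a1 - zadd (e l).2)
      rw [this]
      exact hmem k l hlk
  · intro k l m
    unfold tt
    rw [hee, hee, hee]
    linear_combination zadd (e k).2 + zadd (e l).2 + zadd (e m).2
  · intro k l m hl hm
    unfold tt
    rw [hbe k l hl, hee, hbe k m hm]
    linear_combination zadd (b k).2 + zadd (e l).2 + zadd (e m).2

end Vale.Agent.P052
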