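import Vale.Agent.P052.Door

/-!
From a colouring of the three-sphere with ten colours to odd sign functions, via Ky Fan's lemma
on the sphere of symmetric 4 by 4 matrices.
-/

namespace Vale.Agent.P052

open Multiset
open scoped RealInnerProductSpace

/-- Euclidean four-space -/
abbrev V := EuclideanSpace ℝ (Fin 4)

lemma inner_eq (x y : V) : ⟪x, y⟫ = ∑ k, x k * y k := by
  simp [PiLp.inner_apply, mul_comm]

lemma abs_apply_le {x : V} (hx : ‖x‖ = 1) (k : Fin 4) : |x k| ≤ 1 := by
  have := PiLp.norm_apply_le x k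
  rwa [hx, Real.norm_eq_abs] at this

/-- equally coloured unit vectors are far from orthogonal -/
def Sep (δ : ℝ) (col : V → Fin 10) : Prop :=
  ∀ x y : V, ‖x‖ = 1 → ‖y‖ = 1 → col x = col y → δ ≤ |⟪x, y⟫|

lemma plane_false {δ : ℝ} (hδ : 0 < δ) {col : V → Fin 10} (h : Sep δ col) (u w : V)
    (hu : ‖u‖ = 1) (hw : ‖w‖ = 1) (huw : ⟪u, w⟫ = 0) (i j : Fin 10)
    (hc : ∀ θ : ℝ, col (Real.cos θ • u + Real.sin θ • w) = i ∨
      col (Real.cos θ • u + Real.sin θ • w) = j) : False := by
  set z : ℝ → V := fun θ => Real.cos θ • u + Real.sin θ • w with hz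
  have huu : ⟪u, u⟫ = 1 := by rw [real_inner_self_eq_norm_sq, hu]; norm_num
  have hww : ⟪w, w⟫ = 1 := by rw [real_inner_self_eq_norm_sq, hw]; norm_num
  have hwu : ⟪w, u⟫ = 0 := by rw [real_inner_comm, huw]
  have hin : ∀ a b, ⟪z a, z b⟫ = Real.cos (a - b) := by
    intro a b
    simp only [hz, inner_add_left, inner_add_right, real_inner_smul_left, real_inner_smul_right,
      huu, hww, huw, hwu, Real.cos_sub]
    ring
  have hn : ∀ a, ‖z a‖ = 1 := by
    intro a
    have := hin a a
    rw [real_inner_self_eq_norm_sq, sub_self, Real.cos_zero] at this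
    nlinarith [norm_nonneg (z a)]
  have hne : ∀ a b, |Real.cos (a - b)| < δ → col (z a) ≠ col (z b) := by
    intro a b hab hcol
    have := h _ _ (hn a) (hn b) hcol
    rw [hin] at this
    linarith
  obtain ⟨N, hN⟩ := exists_nat_gt (Real.pi / 2 / δ)
  have hNpos : (0 : ℝ) < N := lt_trans (by have := Real.pi_pos; positivity) hN
  set η := Real.pi / 2 / N with hη
  have hη0 : 0 < η := by have := Real.pi_pos; positivity
  have hηδ : η < δ := by
    rw [hη, div_lt_iff₀ hNpos]
    rw [div_lt_iff₀ hδ] at hN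
    linarith
  have hstep : ∀ a, col (z (a + η)) = col (z a) := by
    intro a
    have h1 := hne (a + Real.pi / 2) a (by simpa using hδ)
    have h2 := hne (a + Real.pi / 2) (a + η) (by
      have : a + Real.pi / 2 - (a + η) = Real.pi / 2 - η := by ring
      rw [this, Real.cos_pi_div_two_sub]
      exact lt_of_le_of_lt (Real.abs_sin_le_abs) (by rwa [abs_of_pos hη0]))
    rcases hc a with a1 | a1 <;> rcases hc (a + η) with a2 | a2 <;>
      rcases hc (a + Real.pi / 2) with a3 | a3 <;> simp_all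
  have hall : ∀ k : ℕ, col (z (k * η)) = col (z 0) := by
    intro k
    induction k with
    | zero => simp
    | succ k ih => rw [← ih, ← hstep (k * η)]; congr 2; push_cast; ring
  have hlast : (N : ℝ) * η = Real.pi / 2 := by rw [hη]; field_simp
  have := hall N
  rw [hlast] at this
  exact hne (Real.pi / 2) 0 (by simpa using hδ) this

/-- positions of the entries of a symmetric matrix -/
def idx : Fin 4 → Fin 4 → Fin 10 := ![![0, 1, 2, 3], ![1, 4, 5, 6], ![2, 5, 7, 8], ![3, 6, 8, 9]]

lemma idx_symm : ∀ k l, idx k l = idx l k := by decide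
lemma idx_surj : ∀ j, ∃ k l, idx k l = j := by decide

/-- unit eigenvectors with large eigenvalue -/
def Eig (p : Fin 10 → ℝ) (x : V) : Prop :=
  ‖x‖ = 1 ∧ ∃ μ : ℝ, 1 / 40 ≤ |μ| ∧ ∀ k, ∑ l, p (idx k l) * x l = μ * x k

lemma Eig_neg (p : Fin 10 → ℝ) : Eig (-p) = Eig p := by
  have key : ∀ p x, Eig p x → Eig (-p) x := by
    rintro p x ⟨h1, μ, h2, h3⟩
    refine ⟨h1, -μ, by rwa [abs_neg], fun k => ?_⟩
    simp [← h3 k]
  funext x
  exact propext ⟨fun h => by simpa using key _ _ h, key _ _⟩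

lemma exists_Eig {p : Fin 10 → ℝ} (hp : OnS p) : ∃ x, Eig p x := by
  let A : Matrix (Fin 4) (Fin 4) ℝ := fun k l => p (idx k l)
  have hA : A.IsHermitian := by
    ext k l
    rw [Matrix.conjTranspose_apply, star_trivial]
    show p (idx l k) = p (idx k l)
    rw [idx_symm l k]
  set b := hA.eigenvectorBasis with hb
  have heig : ∀ j k, ∑ l, p (idx k l) * b j l = hA.eigenvalues j * b j k := by
    intro j k
    have := congrFun (hA.mulVec_eigenvectorBasis j) k
    simpa [Matrix.mulVec, dotProduct, A] using this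
  by_contra hc
  have hsmall : ∀ j, |hA.eigenvalues j| < 1 / 40 := by
    intro j
    by_contra hj
    exact hc ⟨b j, b.norm_eq_one j, _, not_lt.mp hj, heig j⟩
  have hdelta : ∀ m l, ∑ j, b j m * b j l = if m = l then 1 else 0 := by
    intro m l
    have := b.sum_inner_mul_inner (EuclideanSpace.single m (1 : ℝ)) (EuclideanSpace.single l (1 : ℝ))
    simp only [EuclideanSpace.inner_single_left, EuclideanSpace.inner_single_right] at this
    simpa [Pi.single_apply, eq_comm] using this
  have hentry : ∀ k l, |p (idx k l)| < 1 / 10 := by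
    intro k l
    have h1 : p (idx k l) = ∑ j, hA.eigenvalues j * b j k * b j l := by
      simp only [← heig, Finset.sum_mul]
      rw [Finset.sum_comm]
      simp only [mul_assoc, ← Finset.mul_sum, hdelta]
      simp
    have h2 : ∀ j, |hA.eigenvalues j * b j k * b j l| < 1 / 40 := by
      intro j
      rw [abs_mul, abs_mul]
      have a1 := abs_apply_le (b.norm_eq_one j) k
      have a2 := abs_apply_le (b.norm_eq_one j) l
      have a3 := hsmall j
      have a4 : |hA.eigenvalues j| * |b j k| ≤ |hA.eigenvalues j| :=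
        mul_le_of_le_one_right (abs_nonneg _) a1
      have a5 : |hA.eigenvalues j| * |b j k| * |b j l| ≤ |hA.eigenvalues j| * |b j k| :=
        mul_le_of_le_one_right (by positivity) a2
      linarith
    rw [h1]
    refine lt_of_le_of_lt (Finset.abs_sum_le_sum_abs _ _) ?_
    rw [Fin.sum_univ_four]
    linarith [h2 0, h2 1, h2 2, h2 3]
  have : ∑ j, |p j| < ∑ _j : Fin 10, (1 / 10 : ℝ) := by
    apply Finset.sum_lt_sum_of_nonempty Finset.univ_nonempty
    intro j _
    obtain ⟨k, l, rfl⟩ := idx_surj j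
    exact hentry k l
  rw [hp] at this
  norm_num at this

/-- chosen eigenvector -/
noncomputable def xv (p : Fin 10 → ℝ) : V := Classical.epsilon (Eig p)

/-- its eigenvalue -/
noncomputable def mu (p : Fin 10 → ℝ) : ℝ := ∑ k, (∑ l, p (idx k l) * xv p l) * xv p k

lemma xv_neg (p : Fin 10 → ℝ) : xv (-p) = xv p := by unfold xv; rw [Eig_neg]

lemma mu_neg (p : Fin 10 → ℝ) : mu (-p) = -mu p := by
  unfold mu; simp [xv_neg]

lemma xv_spec {p : Fin 10 → ℝ} (hp : OnS p) :
    ‖xv p‖ = 1 ∧ 1 / 40 ≤ |mu p| ∧ ∀ k, ∑ l, p (idx k l) * xv p l = mu p * xv p k := by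
  obtain ⟨h1, μ, h2, h3⟩ : Eig p (xv p) := Classical.epsilon_spec (exists_Eig hp)
  have : mu p = μ := by
    unfold mu
    simp only [h3, mul_assoc, ← Finset.mul_sum, ← inner_eq, real_inner_self_eq_norm_sq, h1]
    simp
  rw [this]
  exact ⟨h1, h2, h3⟩

lemma near_orth {p q : Fin 10 → ℝ} (hp : OnS p) (hq : OnS q) {ε : ℝ} (hpq : ‖p - q‖ ≤ ε)
    (h1 : 0 < mu p) (h2 : ¬ 0 < mu q) : |⟪xv p, xv q⟫| ≤ 320 * ε := by
  obtain ⟨a1, a2, a3⟩ := xv_spec hp
  obtain ⟨b1, b2, b3⟩ := xv_spec hq
  have key : (mu p - mu q) * ⟪xv p, xv q⟫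
      = ∑ k, ∑ l, (p - q) (idx k l) * xv p l * xv q k := by
    have e1 : mu p * ⟪xv p, xv q⟫ = ∑ k, ∑ l, p (idx k l) * xv p l * xv q k := by
      rw [inner_eq, Finset.mul_sum]
      refine Finset.sum_congr rfl fun k _ => ?_
      rw [← Finset.sum_mul, a3, mul_assoc]
    have e2 : mu q * ⟪xv p, xv q⟫ = ∑ k, ∑ l, q (idx k l) * xv p l * xv q k := by
      rw [inner_eq, Finset.mul_sum, Finset.sum_comm]
      refine Finset.sum_congr rfl fun l _ => ?_
      have : mu q * (xv p l * xv q l) = xv p l * (mu q * xv q l) := by ring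
      rw [this, ← b3, Finset.mul_sum]
      refine Finset.sum_congr rfl fun k _ => ?_
      rw [idx_symm l k]; ring
    rw [sub_mul, e1, e2, ← Finset.sum_sub_distrib]
    refine Finset.sum_congr rfl fun k _ => ?_
    rw [← Finset.sum_sub_distrib]
    refine Finset.sum_congr rfl fun l _ => ?_
    simp; ring
  have hterm : ∀ k l, |(p - q) (idx k l) * xv p l * xv q k| ≤ ε := by
    intro k l
    rw [abs_mul, abs_mul]
    have c1 : |(p - q) (idx k l)| ≤ ε := (norm_le_pi_norm (p - q) (idx k l)).trans hpq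
    have c2 := abs_apply_le a1 l
    have c3 := abs_apply_le b1 k
    have a4 : |(p - q) (idx k l)| * |xv p l| ≤ |(p - q) (idx k l)| :=
      mul_le_of_le_one_right (abs_nonneg _) c2
    have a5 : |(p - q) (idx k l)| * |xv p l| * |xv q k| ≤ |(p - q) (idx k l)| * |xv p l| :=
      mul_le_of_le_one_right (by positivity) c3
    linarith
  have hsum : |∑ k, ∑ l, (p - q) (idx k l) * xv p l * xv q k| ≤ 16 * ε := by
    refine (Finset.abs_sum_le_sum_abs _ _).trans ?_
    have : ∀ k, |∑ l, (p - q) (idx k l) * xv p l * xv q k| ≤ 4 * ε := by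
      intro k
      refine (Finset.abs_sum_le_sum_abs _ _).trans ?_
      rw [Fin.sum_univ_four]
      linarith [hterm k 0, hterm k 1, hterm k 2, hterm k 3]
    rw [Fin.sum_univ_four]
    linarith [this 0, this 1, this 2, this 3]
  rw [← key, abs_mul] at hsum
  rw [abs_of_pos h1] at a2
  rw [abs_of_nonpos (not_lt.mp h2)] at b2
  have : 1 / 20 ≤ |mu p - mu q| := by
    rw [abs_of_nonneg (by linarith)]; linarith
  nlinarith [abs_nonneg ⟪xv p, xv q⟫]

/-- robust colour -/
def Rob (δ : ℝ) (col : V → Fin 10) (i : Fin 10) (y : V) : Prop :=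
  ‖y‖ ≤ 1 ∧ ∀ x : V, ‖x‖ = 1 → col x = i → δ / 4 ≤ |⟪x, y⟫|

/-- sign indicator -/
noncomputable def ng (x y : V) : ZMod 2 := if ⟪x, y⟫ < 0 then 1 else 0

lemma far_of_sign {d : ℝ} {x x' y : V} (hy : ‖y‖ ≤ 1) (h1 : d ≤ |⟪x, y⟫|)
    (h2 : d ≤ |⟪x', y⟫|) :
    (ng x y = ng x' y → 2 * d ≤ ‖x + x'‖) ∧ (ng x y ≠ ng x' y → 2 * d ≤ ‖x - x'‖) := by
  have c1 : |⟪x + x', y⟫| ≤ ‖x + x'‖ :=
    (abs_real_inner_le_norm _ _).trans (mul_le_of_le_one_right (norm_nonneg _) hy)
  have c2 : |⟪x - x', y⟫| ≤ ‖x - x'‖ :=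
    (abs_real_inner_le_norm _ _).trans (mul_le_of_le_one_right (norm_nonneg _) hy)
  rw [inner_add_left] at c1
  rw [inner_sub_left] at c2
  have c1' := abs_le.mp c1
  have c2' := abs_le.mp c2
  unfold ng
  by_cases a : ⟪x, y⟫ < 0 <;> by_cases b : ⟪x', y⟫ < 0
  · rw [abs_of_neg a] at h1; rw [abs_of_neg b] at h2
    simp only [a, b, if_true, ne_eq, not_true, false_imp_iff, and_true]
    intro; linarith
  · rw [abs_of_neg a] at h1; rw [abs_of_nonneg (not_lt.mp b)] at h2
    simp only [a, b, if_true, if_false, one_ne_zero, false_imp_iff, true_and]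
    intro; linarith
  · rw [abs_of_nonneg (not_lt.mp a)] at h1; rw [abs_of_neg b] at h2
    simp only [a, b, if_true, if_false, zero_ne_one, false_imp_iff, true_and]
    intro; linarith
  · rw [abs_of_nonneg (not_lt.mp a)] at h1; rw [abs_of_nonneg (not_lt.mp b)] at h2
    simp only [a, b, if_false, ne_eq, not_true, false_imp_iff, and_true]
    intro; linarith

lemma parallel_of_colours {δ : ℝ} (hδ : 0 < δ) {col : V → Fin 10} (h : Sep δ col)
    {x x' : V} (hx : ‖x‖ = 1) (hx' : ‖x'‖ = 1) {d η : ℝ} (hd : 0 < d) (hη : 2 * η < δ * d)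
    (hp : 2 * d ≤ ‖x + x'‖) (hm : 2 * d ≤ ‖x - x'‖) (i j : Fin 10)
    (hc : ∀ m, m ≠ i → m ≠ j → ∃ r : V, ‖r‖ = 1 ∧ col r = m ∧ |⟪x, r⟫| ≤ η ∧ |⟪x', r⟫| ≤ η) :
    False := by
  have hp0 : 0 < ‖x + x'‖ := by linarith
  have hm0 : 0 < ‖x - x'‖ := by linarith
  set u : V := ‖x + x'‖⁻¹ • (x + x') with hu
  set w : V := ‖x - x'‖⁻¹ • (x - x') with hw
  have hu1 : ‖u‖ = 1 := by rw [hu, norm_smul, norm_inv, norm_norm, inv_mul_cancel₀ hp0.ne']
  have hw1 : ‖w‖ = 1 := by rw [hw, norm_smul, norm_inv, norm_norm, inv_mul_cancel₀ hm0.ne']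
  have huw : ⟪u, w⟫ = 0 := by
    rw [hu, hw, real_inner_smul_left, real_inner_smul_right, inner_add_left, inner_sub_right,
      inner_sub_right, real_inner_self_eq_norm_sq, real_inner_self_eq_norm_sq, hx, hx',
      real_inner_comm x x']
    ring
  have bound : ∀ (r v : V), 2 * d ≤ ‖v‖ → |⟪v, r⟫| ≤ 2 * η → |⟪‖v‖⁻¹ • v, r⟫| ≤ η / d := by
    intro r v hv hvr
    have hv0 : 0 < ‖v‖ := by linarith
    have hη0 : 0 ≤ η := by linarith [abs_nonneg ⟪v, r⟫]
    rw [real_inner_smul_left, abs_mul, abs_inv, abs_norm, inv_mul_le_iff₀ hv0]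
    calc |⟪v, r⟫| ≤ 2 * η := hvr
      _ = (2 * d) * (η / d) := by field_simp
      _ ≤ ‖v‖ * (η / d) := by gcongr
  have bu' : ∀ r : V, |⟪x, r⟫| ≤ η → |⟪x', r⟫| ≤ η → |⟪u, r⟫| ≤ η / d := fun r hr3 hr4 =>
    bound _ _ hp (by rw [inner_add_left]; exact (abs_add_le _ _).trans (by linarith))
  have bw' : ∀ r : V, |⟪x, r⟫| ≤ η → |⟪x', r⟫| ≤ η → |⟪w, r⟫| ≤ η / d := fun r hr3 hr4 =>
    bound _ _ hm (by rw [inner_sub_left]; exact (abs_sub _ _).trans (by linarith))
  clear_value u w
  apply plane_false hδ h u w hu1 hw1 huw i j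
  intro θ
  by_contra hne
  push Not at hne
  obtain ⟨r, hr1, hr2, hr3, hr4⟩ := hc _ hne.1 hne.2
  have hz : ‖Real.cos θ • u + Real.sin θ • w‖ = 1 := by
    have : ‖Real.cos θ • u + Real.sin θ • w‖ ^ 2 = 1 := by
      rw [← real_inner_self_eq_norm_sq]
      have huu : ⟪u, u⟫ = 1 := by rw [real_inner_self_eq_norm_sq, hu1]; norm_num
      have hww : ⟪w, w⟫ = 1 := by rw [real_inner_self_eq_norm_sq, hw1]; norm_num
      simp only [inner_add_left, inner_add_right, real_inner_smul_left, real_inner_smul_right,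
        huu, hww, huw, real_inner_comm u w]
      nlinarith [Real.sin_sq_add_cos_sq θ]
    nlinarith [norm_nonneg (Real.cos θ • u + Real.sin θ • w)]
  have hsep := h _ _ hz hr1 hr2.symm
  have bu := bu' r hr3 hr4
  have bw := bw' r hr3 hr4
  rw [inner_add_left, real_inner_smul_left, real_inner_smul_left] at hsep
  have c1 : |Real.cos θ * ⟪u, r⟫| ≤ η / d := by
    rw [abs_mul]
    exact (mul_le_of_le_one_left (abs_nonneg _) (Real.abs_cos_le_one θ)).trans bu
  have c2 : |Real.sin θ * ⟪w, r⟫| ≤ η / d := by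
    rw [abs_mul]
    exact (mul_le_of_le_one_left (abs_nonneg _) (Real.abs_sin_le_one θ)).trans bw
  have c3 := abs_add_le (Real.cos θ * ⟪u, r⟫) (Real.sin θ * ⟪w, r⟫)
  have c4 : 2 * (η / d) < δ := by
    rw [← mul_div_assoc, div_lt_iff₀ hd]; exact hη
  linarith

/-- the labelling of the sphere of symmetric matrices -/
noncomputable def lab (col : V → Fin 10) (p : Fin 10 → ℝ) : Fin 10 × ZMod 2 :=
  (col (xv p), if 0 < mu p then 1 else 0)

lemma lab_neg (col : V → Fin 10) {p : Fin 10 → ℝ} (hp : OnS p) :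
    lab col (-p) = flip (lab col p) := by
  have := (xv_spec hp).2.1
  unfold lab flip
  rw [xv_neg, mu_neg]
  by_cases h : 0 < mu p
  · have h' : ¬ 0 < -mu p := by linarith
    simp only [if_pos h, if_neg h']; rfl
  · have h' : 0 < -mu p := by
      rw [abs_of_nonpos (not_lt.mp h)] at this; linarith
    simp only [if_neg h, if_pos h']; rfl

lemma lab_one {col : V → Fin 10} {p : Fin 10 → ℝ} {i : Fin 10} (h : lab col p = (i, 1)) :
    col (xv p) = i ∧ 0 < mu p := by
  unfold lab at h
  simp only [Prod.mk.injEq] at h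
  refine ⟨h.1, ?_⟩
  by_contra hc
  rw [if_neg hc] at h
  exact absurd h.2 (by decide)

lemma lab_zero {col : V → Fin 10} {p : Fin 10 → ℝ} {i : Fin 10} (h : lab col p = (i, 0)) :
    col (xv p) = i ∧ ¬ 0 < mu p := by
  unfold lab at h
  simp only [Prod.mk.injEq] at h
  refine ⟨h.1, ?_⟩
  intro hc
  rw [if_pos hc] at h
  exact absurd h.2 (by decide)

theorem exists_signs {δ : ℝ} (hδ : 0 < δ) {col : V → Fin 10} (h : Sep δ col) :
    ∃ η : Fin 10 → V → ZMod 2,
      (∀ i y, Rob δ col i y → η i (-y) = η i y + 1) ∧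
      (∀ i y y', (∀ x : V, ‖x‖ = 1 → col x = i → ng x y = ng x y') → η i y = η i y') ∧
      (∀ i j y y', Rob δ col i y → Rob δ col j y → Rob δ col i y' → Rob δ col j y' →
        η i y + η j y = η i y' + η j y') := by
  classical
  set ε := min δ (δ * δ) / 3200 with hε
  have hε0 : 0 < ε := by positivity
  have hε1 : 320 * ε < δ := by
    have := min_le_left δ (δ * δ); rw [hε]; linarith
  have hε2 : 2 * (320 * ε) < δ * (δ / 4) := by
    have := min_le_right δ (δ * δ); rw [hε]; nlinarith
  obtain ⟨z, hz1, hz2, hz3⟩ := exists_cycle 9 ε hε0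
  have hnc0 : ∀ p q, OnS p → OnS q → ‖p - q‖ ≤ ε → (lab col p).1 = (lab col q).1 →
      (lab col p).2 = (lab col q).2 := by
    intro p q hp hq hpq hc
    have hs := h _ _ (xv_spec hp).1 (xv_spec hq).1 hc
    unfold lab
    by_cases a : 0 < mu p <;> by_cases b : 0 < mu q
    · simp [a, b]
    · have := near_orth hp hq hpq a b; linarith
    · have := near_orth (ε := ε) hq hp (by rwa [norm_sub_rev]) b a
      rw [real_inner_comm] at this; linarith
    · simp [a, b]
  have hnc : ∀ s ∈ z, NoCompl (s.map (lab col)) := by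
    intro s hs a ha b hb hab
    obtain ⟨p, hp, rfl⟩ := Multiset.mem_map.mp ha
    obtain ⟨q, hq, rfl⟩ := Multiset.mem_map.mp hb
    exact hnc0 p q ((hz1 s hs).2.1 p hp) ((hz1 s hs).2.1 q hq) ((hz1 s hs).2.2 p hp q hq) hab
  have hodd : ∀ σ, ev z (fun s => if s.map (lab col) = G σ then 1 else 0) = 1 := by
    intro σ
    have hl : Lab ε 10 (fun p => twist σ (lab col p)) := by
      refine ⟨fun p => (lab col p).1.isLt, ?_, ?_⟩
      · intro p hp
        rw [lab_neg col hp]
        simp only [twist, flip, Prod.mk.injEq, true_and]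
        ring
      · intro p q hp hq hpq hc
        have hc' : (lab col p).1 = (lab col q).1 := Fin.ext hc
        simp only [twist, hc', hnc0 p q hp hq hpq hc']
    refine Eq.trans ?_ (hz3 10 _ hl 0)
    apply ev_congr
    intro s hs
    rw [← alt_twist σ (s.map (lab col)) (by simpa using (hz1 s hs).1), Multiset.map_map]
    rfl
  refine ⟨fun i y => ev z (fun s => if s.map (lab col) = G (ind i) then
    Wt (lab col) (fun v => ng (xv v) y) i s else 0), ?_, ?_, ?_⟩
  · intro i y hy
    simp only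
    rw [← hodd (ind i), ← ev_add_fun]
    apply ev_congr
    intro s hs
    split_ifs with hG
    · have h1 : Wt (lab col) (fun _ => 1) i s = 1 := by
        rw [Wt_eq _ _ i s 1 (fun _ _ _ => rfl), hG,
          Multiset.count_eq_one_of_mem (nodup_G _) (mem_G.mpr (by simp [ind]))]
        simp
      rw [← h1]
      unfold Wt
      rw [← ev_add_fun]
      apply ev_congr
      intro v hv
      split_ifs with hv1
      · have := hy.2 _ (xv_spec ((hz1 s hs).2.1 v hv)).1 (lab_one hv1).1
        show ng (xv v) (-y) = ng (xv v) y + 1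
        unfold ng
        rw [inner_neg_right]
        by_cases a : ⟪xv v, y⟫ < 0
        · have b : ¬ -⟪xv v, y⟫ < 0 := by linarith
          rw [if_pos a, if_neg b]; rfl
        · have b : -⟪xv v, y⟫ < 0 := by
            rw [abs_of_nonneg (not_lt.mp a)] at this; linarith
          rw [if_neg a, if_pos b]; rfl
      · simp
    · simp
  · intro i y y' hy
    apply ev_congr
    intro s hs
    split_ifs with hG
    · unfold Wt
      apply ev_congr
      intro v hv
      split_ifs with hv1
      · exact hy _ (xv_spec ((hz1 s hs).2.1 v hv)).1 (lab_one hv1).1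
      · rfl
    · rfl
  · intro i j y y' hiy hjy hiy' hjy'
    by_cases hij : i = j
    · subst hij; rw [zadd, zadd]
    have key := door_pair z (lab col) hz2 hnc (fun v => ng (xv v) y + ng (xv v) y') i j hij (by
      intro s hs hm v hv v' hv' h1 h2
      obtain ⟨-, hS, hclose⟩ := hz1 s hs
      have hv1 := (xv_spec (hS v hv)).1
      have hv1' := (xv_spec (hS v' hv')).1
      have pos : ∀ v ∈ s, (lab col v = (i, 1) ∨ lab col v = (j, 1)) →
          0 < mu v ∧ δ / 4 ≤ |⟪xv v, y⟫| ∧ δ / 4 ≤ |⟪xv v, y'⟫| := by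
        intro v hv hl
        have hv1 := (xv_spec (hS v hv)).1
        rcases hl with hl | hl
        · exact ⟨(lab_one hl).2, hiy.2 _ hv1 (lab_one hl).1, hiy'.2 _ hv1 (lab_one hl).1⟩
        · exact ⟨(lab_one hl).2, hjy.2 _ hv1 (lab_one hl).1, hjy'.2 _ hv1 (lab_one hl).1⟩
      obtain ⟨p1, p2, p3⟩ := pos v hv h1
      obtain ⟨q1, q2, q3⟩ := pos v' hv' h2
      have f1 := far_of_sign hiy.1 p2 q2
      have f2 := far_of_sign hiy'.1 p3 q3
      by_contra hne
      have hfar : 2 * (δ / 4) ≤ ‖xv v + xv v'‖ ∧ 2 * (δ / 4) ≤ ‖xv v - xv v'‖ := by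
        by_cases e1 : ng (xv v) y = ng (xv v') y
        · exact ⟨f1.1 e1, f2.2 (fun e2 => hne (by simp only [e1, e2]))⟩
        · refine ⟨f2.1 ?_, f1.2 e1⟩
          by_contra e2
          apply hne
          rcases zcases (ng (xv v') y) (ng (xv v) y) with a | a
          · exact absurd a e1
          · rcases zcases (ng (xv v') y') (ng (xv v) y') with b | b
            · exact absurd b e2
            · rw [a, b]; linear_combination zadd 1
      refine parallel_of_colours hδ h hv1 hv1' (by positivity) hε2 hfar.1 hfar.2 i j ?_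
      intro m hmi hmj
      obtain ⟨r, hr, hrm⟩ := Multiset.mem_map.mp (hm m hmi hmj)
      exact ⟨xv r, (xv_spec (hS r hr)).1, (lab_zero hrm).1,
        near_orth (hS v hv) (hS r hr) (hclose v hv r hr) p1 (lab_zero hrm).2,
        near_orth (hS v' hv') (hS r hr) (hclose v' hv' r hr) q1 (lab_zero hrm).2⟩)
    have split : ∀ i : Fin 10, ev z (fun s => if s.map (lab col) = G (ind i) then
        Wt (lab col) (fun v => ng (xv v) y + ng (xv v) y') i s else 0)
        = ev z (fun s => if s.map (lab col) = G (ind i) then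
          Wt (lab col) (fun v => ng (xv v) y) i s else 0)
        + ev z (fun s => if s.map (lab col) = G (ind i) then
          Wt (lab col) (fun v => ng (xv v) y') i s else 0) := by
      intro i
      rw [← ev_add_fun]
      apply ev_congr
      intro s _
      split_ifs
      · unfold Wt
        rw [← ev_add_fun]
        apply ev_congr
        intro v _
        split_ifs <;> simp
      · simp
    rw [split, split] at key
    simp only
    linear_combination key - zadd (ev z (fun s => if s.map (lab col) = G (ind i) then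
          Wt (lab col) (fun v => ng (xv v) y') i s else 0))
      + zadd (ev z (fun s => if s.map (lab col) = G (ind j) then
          Wt (lab col) (fun v => ng (xv v) y) j s else 0))

end Vale.Agent.P052
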