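import Mathlib

/-!
A finite check about two-graphs on six points.
-/

namespace Vale.Agent.P052

/-- normalised symmetric matrix -/
def mat (x12 x13 x14 x15 x23 x24 x25 x34 x35 x45 : ZMod 2) : Fin 6 → Fin 6 → ZMod 2 :=
  ![![0, 0, 0, 0, 0, 0], ![0, 0, x12, x13, x14, x15], ![0, x12, 0, x23, x24, x25],
    ![0, x13, x23, 0, x34, x35], ![0, x14, x24, x34, 0, x45], ![0, x15, x25, x35, x45, 0]]

/-- increasing triples -/
def trip : List (Fin 6 × Fin 6 × Fin 6) :=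
  [(0,1,2),(0,1,3),(0,1,4),(0,1,5),(0,2,3),(0,2,4),(0,2,5),(0,3,4),(0,3,5),(0,4,5),
   (1,2,3),(1,2,4),(1,2,5),(1,3,4),(1,3,5),(1,4,5),(2,3,4),(2,3,5),(2,4,5),(3,4,5)]

/-- existence of an alternating triple -/
def hasAlt (γ : Fin 6 → Fin 6 → ZMod 2) (β : Fin 6 → ZMod 2) : Prop :=
  ∃ u ∈ trip, γ u.1 u.2.1 + β u.1 + β u.2.1 = 1 ∧ γ u.2.1 u.2.2 + β u.2.1 + β u.2.2 = 1 ∧
    γ u.1 u.2.2 + β u.1 + β u.2.2 = 0

instance (γ : Fin 6 → Fin 6 → ZMod 2) (β : Fin 6 → ZMod 2) : Decidable (hasAlt γ β) := by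
  unfold hasAlt; infer_instance

lemma six_core : ∀ x12 x13 x14 x15 x23 x24 x25 x34 x35 x45 : ZMod 2,
    (∀ b1 b2 b3 b4 b5 : ZMod 2,
      hasAlt (mat x12 x13 x14 x15 x23 x24 x25 x34 x35 x45) ![0, b1, b2, b3, b4, b5]) →
    x12 + x34 + x35 + x45 = 1 ∧ ¬ (x12 = x13 ∧ x12 = x23 ∧ x12 = x12 + x13 + x23) := by
  decide +kernel

lemma mem_trip : ∀ a b c : Fin 6, a < b → b < c → (a, b, c) ∈ trip := by decide

end Vale.Agent.P052
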