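import Vale.Agent.P052.Alt

/-!
Fine mod 2 cycles on the boundary of the cross-polytope, with Ky Fan's parity property.
-/

namespace Vale.Agent.P052

open Multiset

/-- points of the l1 sphere -/
def OnS {n : ℕ} (p : Fin n → ℝ) : Prop := ∑ j, |p j| = 1

lemma OnS.neg {n : ℕ} {p : Fin n → ℝ} (h : OnS p) : OnS (-p) := by
  simpa [OnS] using h

lemma OnS.abs_le {n : ℕ} {p : Fin n → ℝ} (h : OnS p) (j : Fin n) : |p j| ≤ 1 := by
  rw [← h]
  exact Finset.single_le_sum (f := fun j => |p j|) (fun _ _ => abs_nonneg _) (Finset.mem_univ j)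

lemma OnS.norm_le {n : ℕ} {p : Fin n → ℝ} (h : OnS p) : ‖p‖ ≤ 1 :=
  (pi_norm_le_iff_of_nonneg zero_le_one).mpr (fun j => h.abs_le j)

lemma OnS_single {n : ℕ} (i : Fin n) : OnS (Pi.single i (1 : ℝ) : Fin n → ℝ) := by
  unfold OnS
  rw [Finset.sum_eq_single i]
  · simp
  · intro b _ hb; simp [hb]
  · simp

/-- small tuples on a coordinate subsphere -/
def Good {n : ℕ} (k : ℕ) (ε : ℝ) (l : List (Fin n → ℝ)) : Prop :=
  l.length = k + 1 ∧ (∀ p ∈ l, OnS p ∧ ∀ j : Fin n, k < j.val → p j = 0) ∧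
    ∀ p ∈ l, ∀ q ∈ l, ‖p - q‖ ≤ ε

lemma Good.neg {n k : ℕ} {ε : ℝ} {l : List (Fin n → ℝ)} (h : Good k ε l) :
    Good k ε (l.map Neg.neg) := by
  obtain ⟨h1, h2, h3⟩ := h
  refine ⟨by simpa using h1, ?_, ?_⟩
  · intro p hp
    obtain ⟨q, hq, rfl⟩ := List.mem_map.mp hp
    exact ⟨(h2 q hq).1.neg, fun j hj => by simp [(h2 q hq).2 j hj]⟩
  · intro p hp q hq
    obtain ⟨p, hp', rfl⟩ := List.mem_map.mp hp
    obtain ⟨q, hq', rfl⟩ := List.mem_map.mp hq
    rw [neg_sub_neg]
    exact h3 q hq' p hp'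

/-- admissible labelling at scale `ε` -/
structure Lab {n : ℕ} (ε : ℝ) (N : ℕ) (lam : (Fin n → ℝ) → ℕ × ZMod 2) : Prop where
  lt : ∀ p, (lam p).1 < N
  odd : ∀ p, OnS p → lam (-p) = flip (lam p)
  nc : ∀ p q, OnS p → OnS q → ‖p - q‖ ≤ ε → (lam p).1 = (lam q).1 → (lam p).2 = (lam q).2

lemma Lab.noCompl {n k N : ℕ} {ε : ℝ} {lam : (Fin n → ℝ) → ℕ × ZMod 2} (h : Lab ε N lam)
    {l : List (Fin n → ℝ)} (hl : Good k ε l) : NoCompl ((l : Multiset _).map lam) := by
  intro a ha b hb hab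
  obtain ⟨p, hp, rfl⟩ := Multiset.mem_map.mp ha
  obtain ⟨q, hq, rfl⟩ := Multiset.mem_map.mp hb
  exact h.nc p q (hl.2.1 p hp).1 (hl.2.1 q hq).1 (hl.2.2 p hp q hq) hab

lemma Lab.map_neg {n k N : ℕ} {ε : ℝ} {lam : (Fin n → ℝ) → ℕ × ZMod 2} (h : Lab ε N lam)
    {l : List (Fin n → ℝ)} (hl : Good k ε l) :
    ((l.map Neg.neg : List _) : Multiset _).map lam = ((l : Multiset _).map lam).map flip := by
  rw [← Multiset.map_coe, Multiset.map_map, Multiset.map_map]
  apply Multiset.map_congr rfl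
  intro p hp
  exact h.odd p (hl.2.1 p hp).1

lemma Lab.lt_map {n N : ℕ} {ε : ℝ} {lam : (Fin n → ℝ) → ℕ × ZMod 2} (h : Lab ε N lam)
    (s : Multiset (Fin n → ℝ)) : ∀ a ∈ s.map lam, a.1 < N := by
  intro a ha
  obtain ⟨p, _, rfl⟩ := Multiset.mem_map.mp ha
  exact h.lt p

lemma interp_norm {n : ℕ} (p q e : Fin n → ℝ) (t t' η : ℝ) (ht0 : 0 ≤ t) (ht1 : t ≤ 1)
    (hq : ‖q‖ ≤ 1) (he : ‖e‖ ≤ 1) (htt : |t - t'| ≤ η) :
    ‖((1 - t) • p + t • e) - ((1 - t') • q + t' • e)‖ ≤ ‖p - q‖ + 2 * η := by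
  have : ((1 - t) • p + t • e) - ((1 - t') • q + t' • e)
      = (1 - t) • (p - q) + (t - t') • (e - q) := by
    ext j; simp; ring
  rw [this]
  refine (norm_add_le _ _).trans (add_le_add ?_ ?_)
  · rw [norm_smul, Real.norm_eq_abs, abs_of_nonneg (by linarith)]
    nlinarith [norm_nonneg (p - q)]
  · rw [norm_smul, Real.norm_eq_abs]
    have h1 : ‖e - q‖ ≤ 2 := (norm_sub_le _ _).trans (by linarith)
    nlinarith [norm_nonneg (e - q), abs_nonneg (t - t')]

lemma interp_onS {n : ℕ} (p : Fin n → ℝ) (i : Fin n) (t : ℝ) (ht0 : 0 ≤ t) (ht1 : t ≤ 1)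
    (hp : OnS p) (hi : p i = 0) : OnS ((1 - t) • p + t • (Pi.single i (1 : ℝ) : Fin n → ℝ)) := by
  unfold OnS
  have : ∀ j, |((1 - t) • p + t • (Pi.single i (1 : ℝ) : Fin n → ℝ)) j|
      = (1 - t) * |p j| + t * |(Pi.single i (1 : ℝ) : Fin n → ℝ) j| := by
    intro j
    by_cases hj : j = i
    · subst hj; simp [hi, abs_of_nonneg ht0]
    · simp [hj, abs_mul, abs_of_nonneg (sub_nonneg.mpr ht1)]
  rw [Finset.sum_congr rfl (fun j _ => this j), Finset.sum_add_distrib, ← Finset.mul_sum,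
    ← Finset.mul_sum, hp, OnS_single i]
  ring

theorem exists_chain (n k : ℕ) (hk : k < n) (ε : ℝ) (hε : 0 < ε) :
    ∃ z : Multiset (List (Fin n → ℝ)), (∀ l ∈ z, Good k ε l) ∧
      (∀ w : List (Fin n → ℝ) → ZMod 2, ev z (fun r => ev (faces r) w) = 0) ∧
      (∀ w : List (Fin n → ℝ) → ZMod 2, ev z (fun l => w (l.map Neg.neg)) = ev z w) ∧
      ((card z : ℕ) : ZMod 2) = 0 ∧
      ∀ (N : ℕ) (lam : (Fin n → ℝ) → ℕ × ZMod 2), Lab ε N lam →
        ∀ s, ev z (fun l => alt N s ((l : Multiset _).map lam)) = 1 := by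
  classical
  induction k generalizing ε with
  | zero =>
    set e : Fin n → ℝ := Pi.single ⟨0, hk⟩ 1 with he
    have hg : Good 0 ε [e] := by
      refine ⟨rfl, ?_, ?_⟩
      · intro p hp
        rw [List.mem_singleton.mp hp]
        refine ⟨OnS_single _, fun j hj => ?_⟩
        rw [he, Pi.single_eq_of_ne]
        intro h; rw [h] at hj; simp at hj
      · intro p hp q hq
        rw [List.mem_singleton.mp hp, List.mem_singleton.mp hq]
        simpa using hε.le
    refine ⟨[e] ::ₘ {[-e]}, ?_, ?_, ?_, ?_, ?_⟩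
    · intro l hl
      simp only [mem_cons, mem_singleton] at hl
      rcases hl with rfl | rfl
      · exact hg
      · exact hg.neg
    · intro w; simp [faces, zadd]
    · intro w; simp [add_comm]
    · simp; decide
    · intro N lam hlam s
      have h1 := hlam.map_neg hg
      simp only [List.map_cons, List.map_nil] at h1
      rw [ev_cons, ev_singleton, h1, alt_flip,
        ← cob_alt s (hlam.lt_map _) (hlam.noCompl hg)]
      simp [cob, alt_zero]
  | succ k ih =>
    obtain ⟨z, hz1, hz2, hz3, hz4, hz5⟩ := ih (Nat.lt_of_succ_lt hk) (ε / 2) (half_pos hε)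
    obtain ⟨M, hM⟩ := exists_nat_gt (4 / ε)
    have hMpos : (0 : ℝ) < M := lt_trans (by positivity) hM
    have hMε : 2 * (1 / (M : ℝ)) ≤ ε / 2 := by
      rw [div_lt_iff₀ hε] at hM
      rw [mul_one_div, div_le_div_iff₀ hMpos two_pos]
      linarith
    set e : Fin n → ℝ := Pi.single ⟨k + 1, hk⟩ 1 with he
    set H : ℕ → (Fin n → ℝ) → (Fin n → ℝ) :=
      fun a p => (1 - (a : ℝ) / M) • p + ((a : ℝ) / M) • e with hH
    set h := (Multiset.range M).bind (fun a => z.bind (prism (H a) (H (a + 1)))) with hh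
    have hbd : ∀ w : List (Fin n → ℝ) → ZMod 2, ev h (fun r => ev (faces r) w) = ev z w := by
      intro w
      rw [hh, prism_stack H z hz2 M w]
      have h0 : ∀ l : List (Fin n → ℝ), l.map (H 0) = l := by
        intro l
        conv_rhs => rw [← List.map_id l]
        congr 1
        ext p j
        simp [hH]
      have hM' : ev z (fun l => w (l.map (H M))) = 0 := by
        rw [ev_congr (w' := fun _ => w (List.replicate (k + 1) e)), ev_const, hz4, zero_mul]
        intro l hl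
        congr 1
        have : H M = fun _ => e := by
          ext p j
          simp [hH, div_self hMpos.ne']
        rw [this, List.map_const', (hz1 l hl).1]
      simp only [h0, hM', add_zero]
    have hgood : ∀ l ∈ h, Good (k + 1) ε l := by
      intro r hr
      obtain ⟨a, ha, hr⟩ := Multiset.mem_bind.mp hr
      obtain ⟨l, hl, hr⟩ := Multiset.mem_bind.mp hr
      have haM : a < M := Multiset.mem_range.mp ha
      obtain ⟨hr1, hr2⟩ := mem_prism hr
      obtain ⟨hl1, hl2, hl3⟩ := hz1 l hl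
      have hr3 : ∀ y ∈ r, ∃ x ∈ l, ∃ t : ℝ, (a : ℝ) / M ≤ t ∧ t ≤ ((a : ℝ) + 1) / M ∧
          y = (1 - t) • x + t • e := by
        intro y hy
        obtain ⟨x, hx, hxy⟩ := hr2 y hy
        have hle : (a : ℝ) / M ≤ ((a : ℝ) + 1) / M := by gcongr; linarith
        rcases hxy with rfl | rfl
        · exact ⟨x, hx, _, le_rfl, hle, rfl⟩
        · exact ⟨x, hx, _, hle, le_rfl, by simp [hH]⟩
      have ha0 : (0 : ℝ) ≤ (a : ℝ) / M := by positivity
      have ha1 : ((a : ℝ) + 1) / M ≤ 1 := by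
        rw [div_le_one hMpos]; exact_mod_cast haM
      refine ⟨by rw [hr1, hl1], ?_, ?_⟩
      · intro y hy
        obtain ⟨x, hx, t, ht0, ht1, rfl⟩ := hr3 y hy
        refine ⟨interp_onS x _ t (by linarith) (by linarith) (hl2 x hx).1
          ((hl2 x hx).2 _ (by simp)), ?_⟩
        intro j hj
        have h1 : x j = 0 := (hl2 x hx).2 j (by omega)
        have h2 : e j = 0 := by
          rw [he, Pi.single_eq_of_ne]
          intro h; rw [h] at hj; simp at hj
        simp [h1, h2]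
      · intro y hy y' hy'
        obtain ⟨x, hx, t, ht0, ht1, rfl⟩ := hr3 y hy
        obtain ⟨x', hx', t', ht0', ht1', rfl⟩ := hr3 y' hy'
        have htt : |t - t'| ≤ 1 / (M : ℝ) := by
          have : ((a : ℝ) + 1) / M = (a : ℝ) / M + 1 / M := by ring
          rw [abs_le]; constructor <;> linarith
        have := interp_norm x x' e t t' _ (by linarith) (by linarith) (hl2 x' hx').1.norm_le
          (OnS_single _).norm_le htt
        have := hl3 x hx x' hx'
        linarith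
    refine ⟨h + h.map (List.map Neg.neg), ?_, ?_, ?_, ?_, ?_⟩
    · intro l hl
      rcases Multiset.mem_add.mp hl with hl | hl
      · exact hgood l hl
      · obtain ⟨l', hl', rfl⟩ := Multiset.mem_map.mp hl
        exact (hgood l' hl').neg
    · intro w
      rw [ev_add, ev_map]
      simp only [faces_map, ev_map]
      rw [hbd, hbd (fun r => w (r.map Neg.neg)), hz3, zadd]
    · intro w
      rw [ev_add, ev_add, ev_map, ev_map, add_comm]
      simp
    · simp [zadd]
    · intro N lam hlam s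
      have hlam' : Lab (ε / 2) N lam :=
        ⟨hlam.lt, hlam.odd, fun p q hp hq hpq => hlam.nc p q hp hq (by linarith)⟩
      rw [ev_add, ev_map, ← ev_add_fun, ← hz5 N lam hlam' s, ← hbd]
      apply ev_congr
      intro l hl
      rw [hlam.map_neg (hgood l hl), alt_flip,
        ← cob_alt s (hlam.lt_map _) (hlam.noCompl (hgood l hl)), ← cob_map,
        ← ev_faces l (fun r => alt N s (r.map lam))]

/-- The form used later: unordered simplices on the full sphere. -/
theorem exists_cycle (m : ℕ) (ε : ℝ) (hε : 0 < ε) :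
    ∃ z : Multiset (Multiset (Fin (m + 1) → ℝ)),
      (∀ s ∈ z, card s = m + 1 ∧ (∀ p ∈ s, OnS p) ∧ ∀ p ∈ s, ∀ q ∈ s, ‖p - q‖ ≤ ε) ∧
      (∀ [DecidableEq (Fin (m + 1) → ℝ)] (w : Multiset (Fin (m + 1) → ℝ) → ZMod 2),
        ev z (cob w) = 0) ∧
      ∀ (N : ℕ) (lam : (Fin (m + 1) → ℝ) → ℕ × ZMod 2), Lab ε N lam →
        ∀ s, ev z (fun t => alt N s (t.map lam)) = 1 := by
  obtain ⟨z, hz1, hz2, -, -, hz5⟩ := exists_chain (m + 1) m (Nat.lt_succ_self m) ε hε
  refine ⟨z.map Multiset.ofList, ?_, ?_, ?_⟩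
  · intro s hs
    obtain ⟨l, hl, rfl⟩ := Multiset.mem_map.mp hs
    obtain ⟨h1, h2, h3⟩ := hz1 l hl
    exact ⟨by simpa using h1, fun p hp => (h2 p hp).1, h3⟩
  · intro _ w
    rw [ev_map, ← hz2 (fun r => w (r : Multiset _))]
    apply ev_congr
    intro l _
    rw [ev_faces]
  · intro N lam hlam s
    rw [ev_map]
    exact hz5 N lam hlam s

end Vale.Agent.P052
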